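import Vale.Agent.P015.R3.H7.E.Inputs

/-!
Counting a pattern of Gaussian primes in a square by a two-dimensional sieve that uses both prime
ideals over every prime `p = 1 mod 4`.
-/

open Finset

namespace Vale.Agent.P015.R3.H7

open Vale.Agent.P015

theorem exists_forb {p : ℕ} (hp : p.Prime) (hp4 : p % 4 = 1) {k m : ℕ}
    (hpk : 2 * (k * m) ^ 2 < p) (s : Fin k → GaussianInt) (hs : ∀ i, s i ∈ stepBox m)
    (hinj : ∀ i < k, ∀ j < k, psum s i = psum s j → i = j) :
    ∃ F : Finset (ZMod p × ZMod p), F.card + k * k = 2 * k * p ∧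
      ∀ x : GaussianInt, ((x.re : ZMod p), (x.im : ZMod p)) ∈ F →
        ∃ j : ZMod p, j * j = -1 ∧ ∃ i < k, phi p j (x + psum s i) = 0 := by
  classical
  have : Fact p.Prime := ⟨hp⟩
  have hsq : IsSquare (-1 : ZMod p) := ZMod.exists_sq_eq_neg_one_iff.2 (by omega)
  obtain ⟨j, hj⟩ := hsq
  have hcard : ∀ j : ZMod p, j * j = -1 →
      ((Finset.range k).image (fun i => -(phi p j (psum s i)))).card = k := by
    intro j hj
    rw [Finset.card_image_of_injOn, Finset.card_range]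
    intro i hi i' hi' hii
    simp only [Finset.coe_range, Set.mem_Iio] at hi hi'
    have h3 : phi p j (psum s i) = phi p j (psum s i') := neg_injective hii
    have hB : 2 * ((k * m : ℕ) : ℤ) ^ 2 < p := by exact_mod_cast hpk
    rcases le_total i i' with hle | hle
    · have h4 := psum_bound s hs i i' hle hi'
      have h5 : psum s i' = psum s i := phi_inj_of_small hj (B := ((k * m : ℕ) : ℤ))
        (by push_cast; exact h4.1) (by push_cast; exact h4.2) hB h3.symm
      exact hinj i hi i' hi' h5.symm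
    · have h4 := psum_bound s hs i' i hle hi
      have h5 : psum s i = psum s i' := phi_inj_of_small hj (B := ((k * m : ℕ) : ℤ))
        (by push_cast; exact h4.1) (by push_cast; exact h4.2) hB h3
      exact hinj i hi i' hi' h5
  have hj' : (-j) * (-j) = -1 := by rw [neg_mul_neg]; exact hj.symm
  refine ⟨Finset.univ.filter (fun u : ZMod p × ZMod p =>
    u.1 + j * u.2 ∈ (Finset.range k).image (fun i => -(phi p j (psum s i))) ∨
    u.1 - j * u.2 ∈ (Finset.range k).image (fun i => -(phi p (-j) (psum s i)))), ?_, ?_⟩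
  · have h := forb_card (p := p) (by omega) j hj.symm
      ((Finset.range k).image (fun i => -(phi p j (psum s i))))
      ((Finset.range k).image (fun i => -(phi p (-j) (psum s i))))
    rw [hcard j hj.symm, hcard (-j) hj'] at h
    rw [h]; ring
  · intro x hx
    rw [Finset.mem_filter] at hx
    rcases hx.2 with h | h
    · rw [Finset.mem_image] at h
      obtain ⟨i, hi, hix⟩ := h
      refine ⟨j, hj.symm, i, Finset.mem_range.1 hi, ?_⟩
      rw [phi_add]
      simp only [phi] at hix ⊢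
      linear_combination -hix
    · rw [Finset.mem_image] at h
      obtain ⟨i, hi, hix⟩ := h
      refine ⟨-j, hj', i, Finset.mem_range.1 hi, ?_⟩
      rw [phi_add]
      simp only [phi] at hix ⊢
      linear_combination -hix

/-- Count of a pattern in a square, sieving by both prime ideals over each `p`. -/
theorem box_count (P : Finset ℕ) (hP : ∀ p ∈ P, p.Prime ∧ p % 4 = 1) {k m : ℕ}
    (hPk : ∀ p ∈ P, 2 * (k * m) ^ 2 < p ∧ k ≤ p) (Z : ℕ) (hZ1 : 1 ≤ Z) (hZ : ∀ p ∈ P, p ≤ Z)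
    (s : Fin k → GaussianInt) (hs : ∀ i, s i ∈ stepBox m)
    (hinj : ∀ i < k, ∀ j < k, psum s i = psum s j → i = j)
    (a b : ℤ) (T r : ℕ) (hr : Even r)
    (hmu : 16 * ∑ p ∈ P, (k : ℝ) / p ≤ r + 1)
    (S : Finset GaussianInt) (hS : ∀ x ∈ S, (a ≤ x.re ∧ x.re < a + T) ∧ (b ≤ x.im ∧
      x.im < b + T) ∧ ∀ j < k, Prime (x + psum s j) ∧ (Z : ℤ) ^ 2 < (x + psum s j).norm) :
    (S.card : ℝ) ≤ 2 * (T : ℝ) ^ 2 *
      Real.exp (-∑ p ∈ P, (2 * ((k : ℝ) / p) - ((k : ℝ) / p) ^ 2)) +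
      (2 * T + (Z : ℝ) ^ r) * (1 + (2 * k : ℕ) * (P.card : ℝ)) ^ r := by
  classical
  have hex : ∀ p : ℕ, ∃ F : Finset (ZMod p × ZMod p), p ∈ P → (F.card + k * k = 2 * k * p ∧
      ∀ x : GaussianInt, ((x.re : ZMod p), (x.im : ZMod p)) ∈ F →
        ∃ j : ZMod p, j * j = -1 ∧ ∃ i < k, phi p j (x + psum s i) = 0) := by
    intro p
    by_cases hp : p ∈ P
    · obtain ⟨F, hF⟩ := exists_forb (hP p hp).1 (hP p hp).2 (hPk p hp).1 s hs hinj
      exact ⟨F, fun _ => hF⟩
    · exact ⟨∅, fun h => absurd h hp⟩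
  choose F hF using hex
  have hterm : ∀ p ∈ P, ((F p).card : ℝ) / (p : ℝ) ^ 2 =
      2 * ((k : ℝ) / p) - ((k : ℝ) / p) ^ 2 := by
    intro p hp
    have hp0 : (0 : ℝ) < p := by exact_mod_cast (hP p hp).1.pos
    have h1 : ((F p).card : ℝ) = 2 * k * p - k * k := by
      have h2 : ((F p).card : ℝ) + k * k = 2 * k * p := by exact_mod_cast (hF p hp).1
      linarith
    rw [h1]
    field_simp
  have hsum : ∑ p ∈ P, ((F p).card : ℝ) / (p : ℝ) ^ 2 =
      ∑ p ∈ P, (2 * ((k : ℝ) / p) - ((k : ℝ) / p) ^ 2) := Finset.sum_congr rfl hterm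
  have hmain := brun2 P (fun p hp => (hP p hp).1) F (2 * k) Z (fun p hp => by
      have := (hF p hp).1
      omega) (fun p hp => by
      have hp0 : (0 : ℝ) < p := by exact_mod_cast (hP p hp).1.pos
      have h2 : ((F p).card : ℝ) + k * k = 2 * k * p := by exact_mod_cast (hF p hp).1
      nlinarith [sq_nonneg ((p : ℝ) - k)]) hZ1 hZ a b T r hr (by
      rw [hsum]
      refine le_trans ?_ hmu
      have h3 : ∑ p ∈ P, (2 * ((k : ℝ) / p) - ((k : ℝ) / p) ^ 2) ≤ ∑ p ∈ P, 2 * ((k : ℝ) / p) :=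
        Finset.sum_le_sum fun p _ => by nlinarith [sq_nonneg ((k : ℝ) / p)]
      rw [← Finset.mul_sum] at h3
      linarith)
  rw [hsum] at hmain
  refine le_trans ?_ hmain
  have hcard : S.card ≤ (((Finset.Ico a (a + T)) ×ˢ (Finset.Ico b (b + T))).filter
      (fun x : ℤ × ℤ => ∀ p ∈ P, ((x.1 : ZMod p), (x.2 : ZMod p)) ∉ F p)).card := by
    apply Finset.card_le_card_of_injOn (fun x : GaussianInt => (x.re, x.im))
    · intro x hx
      obtain ⟨h1, h2, h3⟩ := hS x (Finset.mem_coe.1 hx)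
      rw [Finset.mem_coe, Finset.mem_filter, Finset.mem_product, Finset.mem_Ico, Finset.mem_Ico]
      refine ⟨⟨h1, h2⟩, fun p hp hmem => ?_⟩
      obtain ⟨j, hj, i, hi, hphi⟩ := (hF p hp).2 x hmem
      have h5 := dvd_norm_of_phi_eq_zero hj hphi
      have h6 := gprime_norm_le (h3 i hi).1 (hP p hp).1 h5
      have h7 := (h3 i hi).2
      have h8 : (p : ℤ) ^ 2 ≤ (Z : ℤ) ^ 2 := by
        have : (p : ℤ) ≤ Z := by exact_mod_cast hZ p hp
        exact pow_le_pow_left₀ (Int.natCast_nonneg p) this 2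
      linarith only [h6, h7, h8]
    · intro x _ y _ hxy
      rw [Prod.mk.injEq] at hxy
      exact Zsqrtd.ext hxy.1 hxy.2
  exact_mod_cast hcard

end Vale.Agent.P015.R3.H7
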