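import Vale.Agent.P015.R3.H7.E.Moat

/-!
The two-dimensional moat theorem, with every exponent `e > 2`.
-/

open Finset Filter Topology

namespace Vale.Agent.P015.R3.H7

open Vale.Agent.P015

/-- **Two-dimensional moats.** For `e > 2` and `n ≥ exp (C D ^ e)` no injective map of the `n × n` grid into
the Gaussian primes moves neighbours to distance at most `D`. -/
theorem grid_moat_exp {e : ℝ} (he : 2 < e) : ∃ C : ℝ, 0 < C ∧ ∀ D : ℝ, 1 ≤ D → ∀ n : ℕ,
    Real.exp (C * D ^ e) ≤ n →
    ∀ φ : ℕ → ℕ → {z : GaussianInt // Prime z},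
      (∀ i < n, ∀ j < n, ∀ i' < n, ∀ j' < n, φ i j = φ i' j' → i = i' ∧ j = j') →
      ∃ i < n, ∃ j < n,
        (i + 1 < n ∧
          D < dist (GaussianInt.toComplex (φ i j).1) (GaussianInt.toComplex (φ (i + 1) j).1)) ∨
        (j + 1 < n ∧
          D < dist (GaussianInt.toComplex (φ i j).1) (GaussianInt.toComplex (φ i (j + 1)).1)) := by
  classical
  obtain ⟨C₁, hC₁, h⟩ := comp_count_exp (show 2 < (e + 2) / 2 by linarith)
  set δ : ℝ := (e - 2) / 4 with hδdef
  have hδ : 0 < δ := by rw [hδdef]; linarith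
  set q : ℝ := 5 + 2 / δ with hq
  have hq0 : 0 < q := by rw [hq]; positivity
  refine ⟨C₁ * q ^ 2, by positivity, ?_⟩
  intro D hD n hn φ hinj
  by_contra hcon
  push Not at hcon
  have hD0 : 0 < D := by linarith
  have hn1 : 1 ≤ n := by
    by_contra h0
    have h1 : n = 0 := by omega
    rw [h1, Nat.cast_zero] at hn
    exact absurd hn (not_le.2 (Real.exp_pos _))
  have hnR : (1 : ℝ) ≤ n := by exact_mod_cast hn1
  have h1 : ∀ i j, i + 1 < n → j < n →
      dist (GaussianInt.toComplex (φ i j).1) (GaussianInt.toComplex (φ (i + 1) j).1) ≤ D :=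
    fun i j hi hj => (hcon i (by omega) j hj).1 hi
  have h2 : ∀ i j, i < n → j + 1 < n →
      dist (GaussianInt.toComplex (φ i j).1) (GaussianInt.toComplex (φ i (j + 1)).1) ≤ D :=
    fun i j hi hj => (hcon i hi j (by omega)).2 hj
  have ha1 : ∀ i j, i + 1 < n → j < n → (moatGraph D).Adj (φ i j) (φ (i + 1) j) := by
    intro i j hi hj
    refine ⟨fun hee => ?_, h1 i j hi hj⟩
    have := (hinj i (by omega) j hj (i + 1) hi j hj hee).1
    omega
  have ha2 : ∀ i j, i < n → j + 1 < n → (moatGraph D).Adj (φ i j) (φ i (j + 1)) := by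
    intro i j hi hj
    refine ⟨fun hee => ?_, h2 i j hi hj⟩
    have := (hinj i hi j (by omega) i hi (j + 1) hj hee).2
    omega
  have hr1 : ∀ i, i < n → (moatGraph D).Reachable (φ 0 0) (φ i 0) := by
    intro i
    induction i with
    | zero => intro _; exact SimpleGraph.Reachable.refl _
    | succ i ih => intro hi; exact (ih (by omega)).trans (ha1 i 0 hi (by omega)).reachable
  have hr2 : ∀ i, i < n → ∀ j, j < n → (moatGraph D).Reachable (φ 0 0) (φ i j) := by
    intro i hi j
    induction j with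
    | zero => intro _; exact hr1 i hi
    | succ j ih => intro hj; exact (ih (by omega)).trans (ha2 i j hi hj).reachable
  have hd1 : ∀ i, i < n →
      dist (GaussianInt.toComplex (φ i 0).1) (GaussianInt.toComplex (φ 0 0).1) ≤ i * D := by
    intro i
    induction i with
    | zero => intro _; simp
    | succ i ih =>
      intro hi
      have h3 := dist_triangle (GaussianInt.toComplex (φ (i + 1) 0).1)
        (GaussianInt.toComplex (φ i 0).1) (GaussianInt.toComplex (φ 0 0).1)
      have h4 := h1 i 0 hi (by omega)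
      rw [dist_comm] at h4
      have h5 := ih (by omega)
      push_cast
      linarith
  have hd2 : ∀ i, i < n → ∀ j, j < n →
      dist (GaussianInt.toComplex (φ i j).1) (GaussianInt.toComplex (φ 0 0).1) ≤ i * D + j * D := by
    intro i hi j
    induction j with
    | zero => intro _; simpa using hd1 i hi
    | succ j ih =>
      intro hj
      have h3 := dist_triangle (GaussianInt.toComplex (φ i (j + 1)).1)
        (GaussianInt.toComplex (φ i j).1) (GaussianInt.toComplex (φ 0 0).1)
      have h4 := h2 i j hi hj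
      rw [dist_comm] at h4
      have h5 := ih (by omega)
      push_cast
      linarith
  set X : Finset {z : GaussianInt // Prime z} :=
    (Finset.range n ×ˢ Finset.range n).image (fun q => φ q.1 q.2) with hX
  have hXcard : X.card = n * n := by
    rw [hX, Finset.card_image_of_injOn, Finset.card_product, Finset.card_range]
    rintro ⟨a, b⟩ hab ⟨a', b'⟩ hab' hee
    simp only [Finset.coe_product, Finset.coe_range, Set.mem_prod, Set.mem_Iio] at hab hab'
    have := hinj a hab.1 b hab.2 a' hab'.1 b' hab'.2 hee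
    rw [Prod.mk.injEq]
    exact this
  have hlog2D : Real.log (2 * D) ≤ D := by
    rw [Real.log_mul (by norm_num) hD0.ne']
    linarith [Real.log_two_lt_d9, Real.log_le_sub_one_of_pos hD0]
  have hlog2D0 : 0 ≤ Real.log (2 * D) := Real.log_nonneg (by linarith)
  set k : ℕ := 2 + ⌈2 * Real.log (2 * D)⌉₊ with hk
  have hk1 : 2 + 2 * Real.log (2 * D) ≤ k := by
    rw [hk]; push_cast; linarith [Nat.le_ceil (2 * Real.log (2 * D))]
  have hlogD0 : 0 ≤ Real.log D := Real.log_nonneg hD
  have hk2 : (k : ℝ) ≤ 5 + 2 * Real.log D := by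
    have h3 := Nat.ceil_lt_add_one (show 0 ≤ 2 * Real.log (2 * D) by linarith)
    have h4 : Real.log (2 * D) = Real.log 2 + Real.log D :=
      Real.log_mul (by norm_num) hD0.ne'
    rw [hk]; push_cast
    linarith [Real.log_two_lt_d9]
  have hk0 : (0 : ℝ) < k := by linarith
  have hkq : (k : ℝ) ≤ q * D ^ δ := by
    have h3 : Real.log D ≤ D ^ δ / δ := Real.log_le_rpow_div hD0.le hδ
    have h4 : 1 ≤ D ^ δ := Real.one_le_rpow hD hδ.le
    have h5 : q * D ^ δ = 5 * D ^ δ + 2 * (D ^ δ / δ) := by rw [hq]; ring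
    rw [h5]; linarith
  have hlogk : Real.log k ≤ q * D ^ δ := by
    linarith [Real.log_le_sub_one_of_pos hk0]
  have hlogk0 : 0 ≤ Real.log k := Real.log_nonneg (by linarith)
  have hexp : Real.exp (C₁ * D ^ ((e + 2) / 2) * (k * Real.log k)) ≤ 2 * n * D := by
    have h3 : C₁ * D ^ ((e + 2) / 2) * (k * Real.log k) ≤ C₁ * q ^ 2 * D ^ e := by
      have h4 : k * Real.log k ≤ (q * D ^ δ) * (q * D ^ δ) :=
        mul_le_mul hkq hlogk hlogk0 (by positivity)
      have h5 : D ^ ((e + 2) / 2) * (D ^ δ * D ^ δ) = D ^ e := by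
        rw [← Real.rpow_add hD0, ← Real.rpow_add hD0]
        congr 1
        rw [hδdef]; ring
      calc C₁ * D ^ ((e + 2) / 2) * (k * Real.log k)
          ≤ C₁ * D ^ ((e + 2) / 2) * ((q * D ^ δ) * (q * D ^ δ)) :=
            mul_le_mul_of_nonneg_left h4 (by positivity)
        _ = C₁ * q ^ 2 * (D ^ ((e + 2) / 2) * (D ^ δ * D ^ δ)) := by ring
        _ = _ := by rw [h5]
    refine (Real.exp_le_exp.2 h3).trans (hn.trans ?_)
    nlinarith
  have hmain := h C₁ le_rfl D hD k (by omega) (2 * n * D) hexp (GaussianInt.toComplex (φ 0 0).1) X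
    (by
      intro x hx y hy
      rw [hX, Finset.mem_image] at hx hy
      obtain ⟨⟨a, b⟩, hab, rfl⟩ := hx
      obtain ⟨⟨a', b'⟩, hab', rfl⟩ := hy
      rw [Finset.mem_product, Finset.mem_range, Finset.mem_range] at hab hab'
      exact (hr2 a hab.1 b hab.2).symm.trans (hr2 a' hab'.1 b' hab'.2))
    (by
      intro x hx
      rw [hX, Finset.mem_image] at hx
      obtain ⟨⟨a, b⟩, hab, rfl⟩ := hx
      rw [Finset.mem_product, Finset.mem_range, Finset.mem_range] at hab
      refine (hd2 a hab.1 b hab.2).trans ?_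
      have h3 : (a : ℝ) ≤ n := by exact_mod_cast hab.1.le
      have h4 : (b : ℝ) ≤ n := by exact_mod_cast hab.2.le
      nlinarith)
  rw [hXcard] at hmain
  push_cast at hmain
  have hek : (2 * D) ^ 2 * Real.exp (-(k : ℝ)) ≤ Real.exp (-2) := by
    have h3 : (2 * D) ^ 2 = Real.exp (2 * Real.log (2 * D)) := by
      rw [two_mul (Real.log (2 * D)), Real.exp_add, Real.exp_log (by positivity)]
      ring
    rw [h3, ← Real.exp_add]
    apply Real.exp_le_exp.2
    linarith
  have he2 : Real.exp (-2 : ℝ) < 1 := by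
    rw [Real.exp_lt_one_iff]; norm_num
  have h3 : (2 * n * D) ^ 2 * Real.exp (-(k : ℝ)) = n * n * ((2 * D) ^ 2 * Real.exp (-(k : ℝ))) := by
    ring
  rw [h3] at hmain
  have h4 : (0 : ℝ) < n * n := by positivity
  nlinarith

end Vale.Agent.P015.R3.H7
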