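import Vale.Agent.P015.R3.H7.E.Moat
import Vale.Agent.P015.R3.H7.GrowA

/-!
Growing steps with every exponent `c < 1 / 2`: few primes in large components, sparse blocking
sets.
-/

open Finset Filter Topology

namespace Vale.Agent.P015.R3.H7

open Vale.Agent.P015

/-- Powers of the logarithm. -/
theorem scale_exp {C e b c : ℝ} (hC : 0 < C) (hb0 : 0 < b) (hb : b < 1)
    (hc0 : 0 < c) (h : c * e + b < 1) {ε : ℝ} (hε : 0 < ε) :
    ∀ᶠ T : ℝ in atTop, 2 ≤ ⌈T ^ b⌉₊ ∧ 1 ≤ (2 * T) ^ c ∧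
      C * ((2 * T) ^ c) ^ e * (⌈T ^ b⌉₊ * Real.log ⌈T ^ b⌉₊) ≤ ε * T := by
  set δ : ℝ := (1 - b - c * e) / 2 with hδ
  have hδ0 : 0 < δ := by rw [hδ]; linarith
  set G : ℝ := 2 ^ (c * e) with hG
  have hG0 : 0 < G := Real.rpow_pos_of_pos (by norm_num) _
  have h1 : ∀ᶠ T : ℝ in atTop, 1 < T ^ b :=
    (tendsto_rpow_atTop hb0).eventually (eventually_gt_atTop 1)
  have h2 : ∀ᶠ T : ℝ in atTop, 4 * C * G / ε ≤ T ^ δ :=
    (tendsto_rpow_atTop hδ0).eventually (eventually_ge_atTop _)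
  have h3 : ∀ᶠ T : ℝ in atTop, Real.log T ≤ T ^ δ := by
    have h := (isLittleO_log_rpow_atTop hδ0).bound (show (0 : ℝ) < 1 by norm_num)
    filter_upwards [h, eventually_gt_atTop (1 : ℝ)] with T hT hT1
    rw [one_mul, Real.norm_of_nonneg (Real.log_nonneg hT1.le),
      Real.norm_of_nonneg (by positivity)] at hT
    exact hT
  filter_upwards [h1, h2, h3, eventually_ge_atTop (2 : ℝ)] with T g1 g2 g3 hT2
  have hT0 : 0 < T := by linarith
  have hk1 : T ^ b ≤ ⌈T ^ b⌉₊ := Nat.le_ceil _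
  have hk2 : (⌈T ^ b⌉₊ : ℝ) ≤ 2 * T ^ b := by
    have := Nat.ceil_lt_add_one (show 0 ≤ T ^ b by positivity)
    linarith
  have hkk : 2 ≤ ⌈T ^ b⌉₊ := by
    have : (1 : ℝ) < ⌈T ^ b⌉₊ := lt_of_lt_of_le g1 hk1
    exact_mod_cast this
  have hbT : T ^ b ≤ T := by
    calc T ^ b ≤ T ^ (1 : ℝ) := Real.rpow_le_rpow_of_exponent_le (by linarith) hb.le
      _ = T := Real.rpow_one T
  have hlogk : Real.log ⌈T ^ b⌉₊ ≤ 2 * T ^ δ := by
    have h4 : (⌈T ^ b⌉₊ : ℝ) ≤ T ^ 2 := by nlinarith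
    have h5 := Real.log_le_log (by linarith) h4
    rw [Real.log_pow] at h5
    push_cast at h5
    linarith
  have hlogk0 : 0 ≤ Real.log ⌈T ^ b⌉₊ := Real.log_nonneg (by linarith)
  refine ⟨hkk, Real.one_le_rpow (by linarith) hc0.le, ?_⟩
  have h6 : ((2 * T) ^ c) ^ e = G * T ^ (c * e) := by
    rw [← Real.rpow_mul (by positivity), Real.mul_rpow (by norm_num) hT0.le]
  rw [h6]
  have h8 : C * (G * T ^ (c * e)) * (⌈T ^ b⌉₊ * Real.log ⌈T ^ b⌉₊) ≤
      C * (G * T ^ (c * e)) * ((2 * T ^ b) * (2 * T ^ δ)) := by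
    apply mul_le_mul_of_nonneg_left _ (by positivity)
    exact mul_le_mul hk2 hlogk hlogk0 (by positivity)
  refine h8.trans ?_
  have h9 : T = T ^ (c * e) * T ^ b * T ^ δ * T ^ δ := by
    rw [← Real.rpow_add hT0, ← Real.rpow_add hT0, ← Real.rpow_add hT0]
    have : c * e + b + δ + δ = 1 := by rw [hδ]; ring
    rw [this, Real.rpow_one]
  have h10 : 4 * C * G ≤ ε * T ^ δ := by
    rw [div_le_iff₀ hε] at g2
    linarith
  calc C * (G * T ^ (c * e)) * ((2 * T ^ b) * (2 * T ^ δ))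
      = (4 * C * G) * (T ^ (c * e) * T ^ b * T ^ δ) := by ring
    _ ≤ (ε * T ^ δ) * (T ^ (c * e) * T ^ b * T ^ δ) :=
        mul_le_mul_of_nonneg_right h10 (by positivity)
    _ = ε * (T ^ (c * e) * T ^ b * T ^ δ * T ^ δ) := by ring
    _ = ε * T := by rw [← h9]

theorem kd_le_exp {C e D : ℝ} (hC : 20 ≤ C) (he : 2 ≤ e) (hD : 1 ≤ D) {k : ℕ} (hk : 2 ≤ k) :
    5 * (k * D) * D ≤ C * D ^ e * (k * Real.log k) := by
  have hk2 : (2 : ℝ) ≤ k := by exact_mod_cast hk
  have hD0 : 0 < D := by linarith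
  have hlogk : 0.69 ≤ Real.log k := by
    have h1 := Real.log_le_log (by norm_num) hk2
    linarith [Real.log_two_gt_d9]
  have hDC : D ^ 2 ≤ D ^ e := by
    rw [← Real.rpow_natCast]
    exact Real.rpow_le_rpow_of_exponent_le hD (by push_cast; linarith)
  calc 5 * (k * D) * D = D ^ 2 * (5 * k) := by ring
    _ ≤ D ^ 2 * (20 * (k * Real.log k)) := by
        apply mul_le_mul_of_nonneg_left _ (by positivity)
        nlinarith
    _ = 20 * D ^ 2 * (k * Real.log k) := by ring
    _ ≤ C * D ^ e * (k * Real.log k) := by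
        apply mul_le_mul_of_nonneg_right _ (by positivity)
        exact mul_le_mul hC hDC (by positivity) (by linarith)

/-- Everything that is needed at radius `R`. -/
theorem eventually_scale_exp {C e b c : ℝ} (hC : 20 ≤ C) (he : 2 ≤ e) (hb0 : 0 < b) (hb : b < 1)
    (hc0 : 0 < c) (h : c * e + b < 1) :
    ∀ᶠ R : ℝ in atTop, ∃ (k : ℕ) (D : ℝ), D = (2 * Real.log (2 * R + 16)) ^ c ∧
      2 ≤ k ∧ 1 ≤ D ∧ C * D ^ e * (k * Real.log k) ≤ Real.log R ∧
      Real.exp (-(k : ℝ)) ≤ Real.exp (-((Real.log R) ^ b)) ∧ Real.log R ≤ R ∧ 16 ≤ R := by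
  have hT : Tendsto (fun R : ℝ => Real.log (2 * R + 16)) atTop atTop :=
    Real.tendsto_log_atTop.comp (tendsto_atTop_add_const_right _ _
      (tendsto_id.const_mul_atTop (by norm_num)))
  filter_upwards [hT.eventually (scale_exp (by linarith : (0 : ℝ) < C) hb0 hb hc0 h
    (show (0 : ℝ) < 1 / 2 by norm_num)), eventually_ge_atTop (16 : ℝ)] with R hR hR16
  obtain ⟨h1, h2, h3⟩ := hR
  have hR0 : 0 < R := by linarith
  have hlogR : 1 ≤ Real.log R := by
    have h4 := log_sixteen_le (show (0 : ℝ) ≤ R - 16 by linarith)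
    rw [sub_add_cancel] at h4
    linarith
  have h4 : Real.log (2 * R + 16) ≤ 2 * Real.log R := by
    have h5 : 2 * R + 16 ≤ R ^ 2 := by nlinarith
    have h6 := Real.log_le_log (by linarith) h5
    rw [Real.log_pow] at h6
    push_cast at h6
    exact h6
  refine ⟨⌈(Real.log (2 * R + 16)) ^ b⌉₊, _, rfl, h1, h2, by linarith, ?_,
    by linarith [Real.log_le_sub_one_of_pos hR0], hR16⟩
  apply Real.exp_le_exp.2
  have h5 : (Real.log R) ^ b ≤ (Real.log (2 * R + 16)) ^ b :=
    Real.rpow_le_rpow (by linarith) (Real.log_le_log hR0 (by linarith)) hb0.le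
  have h6 := Nat.le_ceil ((Real.log (2 * R + 16)) ^ b)
  linarith

/-- **Growing steps: few primes in large components.** -/
theorem grow_few_exp (b c : ℝ) (hb0 : 0 < b) (hc0 : 0 < c) (hbc : 2 * c + b < 1) :
    ∀ᶠ R : ℝ in atTop,
    ∀ X : Finset {z : GaussianInt // Prime z},
    (∀ z ∈ X, ‖GaussianInt.toComplex z.1‖ ≤ R ∧ ∃ w, (growGraph c).Reachable z w ∧
      Real.log R < dist (GaussianInt.toComplex z.1) (GaussianInt.toComplex w.1)) →
    (X.card : ℝ) ≤ R ^ 2 * Real.exp (-((Real.log R) ^ b)) := by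
  have hb : b < 1 := by linarith
  have hc1 : c ≤ 1 := by linarith
  set e : ℝ := 2 + (1 - b - 2 * c) / (2 * c) with hedef
  have he : 2 < e := by
    rw [hedef]
    have : 0 < (1 - b - 2 * c) / (2 * c) := div_pos (by linarith) (by linarith)
    linarith
  have hce : c * e + b < 1 := by
    have : c * e = 2 * c + (1 - b - 2 * c) / 2 := by rw [hedef]; field_simp
    linarith
  obtain ⟨C₁, hC₁, hst⟩ := start_count_exp he
  set C : ℝ := C₁ + 20 with hCdef
  have hC : 20 ≤ C := by linarith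
  filter_upwards [eventually_scale_exp hC he.le hb0 hb hc0 hce] with R hR
  obtain ⟨k, D, hDdef, hk, hD, h1, h2, h3, hR16⟩ := hR
  intro X hX
  have hR0 : 0 < R := by linarith
  have hD0 : 0 < D := by linarith
  have hkl : 0 ≤ k * Real.log k :=
    mul_nonneg (Nat.cast_nonneg k) (Real.log_nonneg (by exact_mod_cast (by omega : 1 ≤ k)))
  obtain ⟨m, hm, hkm, hmD, hcount⟩ := hst D hD k hk
  have hexp : Real.exp (C₁ * D ^ e * (k * Real.log k)) ≤ R := by
    have h4 : C₁ * D ^ e * (k * Real.log k) ≤ Real.log R :=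
      (const_mono_exp (by linarith) hD hkl).trans h1
    calc Real.exp (C₁ * D ^ e * (k * Real.log k)) ≤ Real.exp (Real.log R) :=
          Real.exp_le_exp.2 h4
      _ = R := Real.exp_log hR0
  have hmlog : m * D ≤ Real.log R := by
    have h4 := kd_le_exp hC he.le hD hk
    have h5 : (m : ℝ) * D ≤ 5 * (k * D) * D := mul_le_mul_of_nonneg_right hmD hD0.le
    linarith
  have h5 := hcount R (by linarith) hexp 0 X (by
    intro z hz
    obtain ⟨hz1, w, ⟨p⟩, hw⟩ := hX z hz
    refine ⟨by rw [dist_zero_right]; exact hz1, ?_⟩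
    obtain ⟨v, q, hv, -, -⟩ := grow_exit (r := Real.log R) hD0.le (GaussianInt.toComplex z.1)
      (by
        intro x y hxy hx
        rw [hDdef]
        apply step_in_disc hc0.le hc1 hxy
        have h6 := norm_le_add_dist z.1 x.1
        rw [dist_comm] at h6
        linarith) p (by rw [dist_self]; linarith [Real.log_nonneg (by linarith : (1 : ℝ) ≤ R)])
      (by rw [dist_comm]; exact hw)
    refine startsPath_of_far hD0 (by omega) q ?_
    rw [dist_comm]
    linarith)
  have h6 : (X.card : ℝ) ≤ X.card * (16 * D) := by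
    have : (0 : ℝ) ≤ X.card := Nat.cast_nonneg _
    nlinarith
  exact h6.trans (h5.trans (mul_le_mul_of_nonneg_left h2 (by positivity)))

/-- Near-moats for growing steps. -/
theorem grow_annulus_exp (b c : ℝ) (hb0 : 0 < b) (hc0 : 0 < c) (hbc : 2 * c + b < 1) :
    ∀ᶠ R : ℝ in atTop,
    ∃ F : Finset {z : GaussianInt // Prime z},
      (∀ z ∈ F, R ≤ ‖GaussianInt.toComplex z.1‖ ∧ ‖GaussianInt.toComplex z.1‖ ≤ 2 * R) ∧
      (F.card : ℝ) ≤ R * Real.exp (-((Real.log R) ^ b)) ∧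
      ∀ (z w : {z : GaussianInt // Prime z}) (p : (growGraph c).Walk z w),
        ‖GaussianInt.toComplex z.1‖ < R → 2 * R < ‖GaussianInt.toComplex w.1‖ →
        ∃ v ∈ p.support, v ∈ F := by
  have hb : b < 1 := by linarith
  have hc1 : c ≤ 1 := by linarith
  set e : ℝ := 2 + (1 - b - 2 * c) / (2 * c) with hedef
  have he : 2 < e := by
    rw [hedef]
    have : 0 < (1 - b - 2 * c) / (2 * c) := div_pos (by linarith) (by linarith)
    linarith
  have hce : c * e + b < 1 := by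
    have : c * e = 2 * c + (1 - b - 2 * c) / 2 := by rw [hedef]; field_simp
    linarith
  obtain ⟨C₁, hC₁, hmoat⟩ := local_moat_exp he
  set C : ℝ := C₁ + 20 with hCdef
  have hC : 20 ≤ C := by linarith
  filter_upwards [eventually_scale_exp hC he.le hb0 hb hc0 hce] with R hR
  obtain ⟨k, D, hDdef, hk, hD, h1, h2, h3, hR16⟩ := hR
  have hR0 : 0 < R := by linarith
  have hD0 : 0 < D := by linarith
  have hexp : Real.exp (C * D ^ e * (k * Real.log k)) ≤ R := by
    calc Real.exp (C * D ^ e * (k * Real.log k)) ≤ Real.exp (Real.log R) := Real.exp_le_exp.2 h1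
      _ = R := Real.exp_log hR0
  obtain ⟨F, hF1, hF2, hF3⟩ := hmoat C (by linarith) D hD k hk R hexp 0
  refine ⟨F, ?_, hF2.trans (mul_le_mul_of_nonneg_left h2 hR0.le), ?_⟩
  · intro z hz
    have := hF1 z hz
    rwa [dist_zero_right] at this
  · intro z w p hz hw
    obtain ⟨v, q, hv, hq1, -⟩ := grow_exit (r := 2 * R) hD0.le 0
      (by
        intro x y hxy hx
        rw [dist_zero_right] at hx
        rw [hDdef]
        exact step_in_disc hc0.le hc1 hxy hx) p (by rw [dist_zero_right]; linarith)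
      (by rw [dist_zero_right]; exact hw)
    obtain ⟨x, hx1, hx2⟩ := hF3 z v q (by rw [dist_zero_right]; exact hz) hv
    exact ⟨x, hq1 x hx1, hx2⟩

/-- **Growing steps: sparse blocking sets.** -/
theorem grow_blocking_exp (b c : ℝ) (hb0 : 0 < b) (hc0 : 0 < c) (hbc : 2 * c + b < 1) :
    ∃ F : Set {z : GaussianInt // Prime z},
    (∀ K : ((growGraph c).induce Fᶜ).ConnectedComponent, K.supp.Finite) ∧
    ∀ᶠ R : ℝ in atTop, ∀ X : Finset {z : GaussianInt // Prime z},
      (∀ z ∈ X, z ∈ F ∧ ‖GaussianInt.toComplex z.1‖ ≤ R) →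
      (X.card : ℝ) ≤ R * Real.exp (-((Real.log R) ^ b)) := by
  classical
  set b' : ℝ := (1 - 2 * c + b) / 2 with hb'
  have hb'1 : b' < 1 := by rw [hb']; linarith
  have hbb' : b < b' := by rw [hb']; linarith
  have hev := grow_annulus_exp b' c (by linarith) hc0 (by rw [hb']; linarith)
  obtain ⟨R₀, hR₀⟩ := eventually_atTop.1 hev
  choose! Fn hF1 hF2 hF3 using hR₀
  set R₁ : ℝ := max R₀ (Real.exp 1) with hR₁
  refine ⟨{v | ∃ n : ℕ, R₁ ≤ 2 ^ n ∧ v ∈ Fn (2 ^ n)}, ?_, ?_⟩
  · intro K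
    induction K using SimpleGraph.ConnectedComponent.ind with
    | h v₀ =>
      obtain ⟨n, hn⟩ := pow_unbounded_of_one_lt
        (max R₁ ‖GaussianInt.toComplex (v₀ : {z : GaussianInt // Prime z}).1‖)
        (one_lt_two (α := ℝ))
      have hn1 : R₁ ≤ 2 ^ n := (le_max_left _ _).trans hn.le
      have hn2 : ‖GaussianInt.toComplex (v₀ : {z : GaussianInt // Prime z}).1‖ < 2 ^ n :=
        lt_of_le_of_lt (le_max_right _ _) hn
      refine ((finite_norm_le (2 * 2 ^ n)).preimage Subtype.val_injective.injOn).subset ?_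
      intro w hw
      rw [SimpleGraph.ConnectedComponent.mem_supp_iff, SimpleGraph.ConnectedComponent.eq] at hw
      obtain ⟨p⟩ := hw.symm
      obtain ⟨q, hq⟩ := induce_walk' _ p
      rw [Set.mem_preimage, Set.mem_ofPred_eq]
      by_contra hcon
      obtain ⟨v, hv1, hv2⟩ := hF3 (2 ^ n) ((le_max_left _ _).trans hn1) v₀ w q hn2 (not_le.1 hcon)
      exact hq v hv1 ⟨n, hn1, hv2⟩
  · have h3 := Real.tendsto_log_atTop.eventually (absorb hbb' hb0)
    filter_upwards [h3, Real.tendsto_log_atTop.eventually (eventually_ge_atTop (1 : ℝ)),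
      eventually_ge_atTop R₁] with R hR hR1 hRR
    intro X hX
    have hR0 : 0 < R := lt_of_lt_of_le (lt_of_lt_of_le (Real.exp_pos _) (le_max_right _ _)) hRR
    set N : ℕ := ⌊Real.log R / Real.log 2⌋₊ + 1 with hN
    have hl2 : 1 / 2 ≤ Real.log 2 := by linarith only [Real.log_two_gt_d9]
    have hN3 : (N : ℝ) ≤ 3 * Real.log R := by
      have h4 : (⌊Real.log R / Real.log 2⌋₊ : ℝ) ≤ Real.log R / Real.log 2 :=
        Nat.floor_le (by positivity)
      have h5 : Real.log R / Real.log 2 ≤ 2 * Real.log R := by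
        rw [div_le_iff₀ (by linarith only [hl2])]
        nlinarith only [hl2, hR1]
      rw [hN]
      push_cast
      linarith only [hR1, h4, h5]
    set I : Finset ℕ := (Finset.range N).filter (fun n => R₁ ≤ (2 : ℝ) ^ n ∧ (2 : ℝ) ^ n ≤ R)
      with hI
    have hsub : X ⊆ I.biUnion (fun n => Fn (2 ^ n)) := by
      intro z hz
      obtain ⟨⟨n, hn1, hn2⟩, hz2⟩ := hX z hz
      rw [Finset.mem_biUnion]
      refine ⟨n, ?_, hn2⟩
      have h4 := (hF1 (2 ^ n) ((le_max_left _ _).trans hn1) z hn2).1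
      have h5 : (2 : ℝ) ^ n ≤ R := h4.trans hz2
      rw [hI, Finset.mem_filter, Finset.mem_range]
      refine ⟨?_, hn1, h5⟩
      have h6 : (n : ℝ) ≤ Real.log R / Real.log 2 := by
        rw [le_div_iff₀ (by linarith only [hl2]), ← Real.log_pow]
        exact Real.log_le_log (by positivity) h5
      have h7 : n ≤ ⌊Real.log R / Real.log 2⌋₊ := Nat.le_floor h6
      omega
    have hterm : ∀ n ∈ I, ((Fn (2 ^ n)).card : ℝ) ≤ R * Real.exp (-((Real.log R) ^ b')) := by
      intro n hn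
      rw [hI, Finset.mem_filter] at hn
      exact (hF2 (2 ^ n) ((le_max_left _ _).trans hn.2.1)).trans
        (saving_mono'' hb'1.le ((le_max_right _ _).trans hn.2.1) hn.2.2)
    calc (X.card : ℝ) ≤ ((I.biUnion (fun n => Fn (2 ^ n))).card : ℝ) := by
          exact_mod_cast Finset.card_le_card hsub
      _ ≤ ∑ n ∈ I, ((Fn (2 ^ n)).card : ℝ) := by exact_mod_cast Finset.card_biUnion_le
      _ ≤ ∑ n ∈ I, R * Real.exp (-((Real.log R) ^ b')) := Finset.sum_le_sum hterm
      _ = I.card * (R * Real.exp (-((Real.log R) ^ b'))) := by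
          rw [Finset.sum_const, nsmul_eq_mul]
      _ ≤ (3 * Real.log R) * (R * Real.exp (-((Real.log R) ^ b'))) := by
          apply mul_le_mul_of_nonneg_right _ (by positivity)
          refine le_trans ?_ hN3
          have : I.card ≤ N := (Finset.card_filter_le _ _).trans (Finset.card_range N).le
          exact_mod_cast this
      _ = R * (3 * Real.log R * Real.exp (-((Real.log R) ^ b'))) := by ring
      _ ≤ R * Real.exp (-((Real.log R) ^ b)) := mul_le_mul_of_nonneg_left hR hR0.le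


end Vale.Agent.P015.R3.H7
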