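import Vale.Agent.P015.R3.H7.F_helper110
import Vale.Agent.P015.R3.H7.M_helper916
import Vale.Agent.P015.R3.H7.S_helper989

/-!
The three inputs: the forbidden set of a pattern modulo `p` (`forb_card`), Mertens' theorem
modulo `4` with the constant `1 / 2` (`mertens_half`), and the two-dimensional Brun sieve (`brun2`).
-/
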