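import Vale.Agent.P015.R3.H7.E.Sq

/-!
Starts of long paths of `G_D` in squares and discs with every exponent `e > 2`.
-/

open Finset

namespace Vale.Agent.P015.R3.H7

open Vale.Agent.P015

/-- **Square count with exponent `e > 2`.** -/
theorem square_count_exp {e : ℝ} (he : 2 < e) : ∃ C : ℝ, 0 < C ∧ ∀ (D : ℝ), 1 ≤ D → ∀ k : ℕ,
    2 ≤ k → ∀ L : ℕ, Real.exp (C * D ^ e * (k * Real.log k)) ≤ L →
    ∀ (s0 t0 : ℤ) (X : Finset {z : GaussianInt // Prime z}),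
    (∀ z ∈ X, s0 ≤ z.1.im ∧ z.1.im < s0 + L ∧ t0 ≤ z.1.re ∧ z.1.re < t0 + L ∧
      StartsPath D k z) →
    (X.card : ℝ) ≤ L ^ 2 * Real.exp (-k) := by
  classical
  obtain ⟨C, hC, hfin⟩ := sq_final he
  refine ⟨C, hC, ?_⟩
  intro D hD k hk L hL s0 t0 X hX
  have hm1 : 1 ≤ ⌊D⌋₊ := Nat.le_floor (by simpa only [Nat.cast_one] using hD)
  have hmD : ((⌊D⌋₊ : ℕ) : ℝ) ≤ D := Nat.floor_le (by linarith only [hD])
  have hpat : ∀ z ∈ X, ∃ s : Fin k → GaussianInt, (∀ i, s i ∈ stepBox ⌊D⌋₊) ∧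
      (∀ i < k, ∀ j < k, psum s i = psum s j → i = j) ∧
      ∀ j < k, Prime ((z : GaussianInt) + psum s j) := fun z hz =>
    pattern_of_startsPath (hX z hz).2.2.2.2
  generalize ⌊D⌋₊ = m at *
  obtain ⟨σ, hσ0, hσ2, hσm, K, hK1, hK3, hnumr⟩ := hfin hD hk m hm1 hmD
  obtain ⟨hy16, hy4, hΔ9, hky, hΔy, -, h2km⟩ := nat_facts hk hm1
  have hK4 := hK3 ((2 * k * m) ^ 2) (by omega)
  have hk0 : (2 : ℝ) ≤ k := by exact_mod_cast hk
  have hm1R : (1 : ℝ) ≤ m := by exact_mod_cast hm1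
  have hσ4 : 4 ≤ σ := by
    have h1 : 0 ≤ Real.log (((2 * m + 1) ^ 2 : ℕ) : ℝ) := by
      apply Real.log_nonneg
      have : 1 ≤ (2 * m + 1) ^ 2 := Nat.one_le_pow _ _ (by omega)
      exact_mod_cast this
    linarith only [h1, hσ2]
  set r : ℕ := 2 * ⌈8 * ((k : ℝ) * (σ + 1))⌉₊ with hr
  have hr1 : 16 * ((k : ℝ) * (σ + 1)) ≤ r := by
    rw [hr]; push_cast
    have := Nat.le_ceil (8 * ((k : ℝ) * (σ + 1)))
    linarith only [this]
  have hkσ : 10 ≤ (k : ℝ) * (σ + 1) := by nlinarith only [hk0, hσ4]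
  have hr2 : (r : ℝ) ≤ 17 * (k * (σ + 1)) := by
    rw [hr]; push_cast
    have h1 : (⌈8 * ((k : ℝ) * (σ + 1))⌉₊ : ℝ) < 8 * ((k : ℝ) * (σ + 1)) + 1 :=
      Nat.ceil_lt_add_one (by linarith only [hkσ])
    linarith only [hkσ, h1]
  have hreven : Even r := ⟨_, by rw [hr]; ring⟩
  have hrpos : 1 ≤ r := by
    have : (1 : ℝ) ≤ r := by linarith only [hkσ, hr1]
    exact_mod_cast this
  clear_value r
  have h2 := hnumr r hrpos hr2
  obtain ⟨P, hPmem, hPcard, hmu1, hmu2⟩ := exists_primes hσ0 _ K hK4 k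
  have hyeq : (((2 * k * m) ^ 2 : ℕ) : ℝ) = 4 * (k : ℝ) ^ 2 * (m : ℝ) ^ 2 := by
    push_cast; ring
  -- lower bound for the total density
  have hmu3 : (k : ℝ) * (Real.log (((2 * m + 1) ^ 2 : ℕ) : ℝ) + 8) ≤
      ∑ p ∈ P, (2 * ((k : ℝ) / p) - ((k : ℝ) / p) ^ 2) := by
    have h3 : ∀ p ∈ P, ((k : ℝ) / p) ^ 2 ≤ (k : ℝ) / p * (1 / (4 * (k * (m : ℝ) ^ 2))) := by
      intro p hp
      have hpy : (((2 * k * m) ^ 2 : ℕ) : ℝ) ≤ p := by exact_mod_cast (hPmem p hp).2.2.1.le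
      rw [hyeq] at hpy
      have hp0 : (0 : ℝ) < p := by exact_mod_cast (hPmem p hp).1.pos
      rw [sq]
      apply mul_le_mul_of_nonneg_left _ (by positivity)
      rw [div_le_div_iff₀ hp0 (by positivity)]
      calc (k : ℝ) * (4 * ((k : ℝ) * (m : ℝ) ^ 2)) = 4 * (k : ℝ) ^ 2 * (m : ℝ) ^ 2 := by ring
        _ ≤ 1 * (p : ℝ) := by linarith only [hpy]
    have h4 := Finset.sum_le_sum h3
    rw [← Finset.sum_mul] at h4
    rw [Finset.sum_sub_distrib, ← Finset.mul_sum]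
    have h5 : (∑ p ∈ P, (k : ℝ) / p) * (1 / (4 * (k * (m : ℝ) ^ 2))) ≤ 2 := by
      calc (∑ p ∈ P, (k : ℝ) / p) * (1 / (4 * (k * (m : ℝ) ^ 2)))
          ≤ (k * (σ + 1)) * (1 / (4 * (k * (m : ℝ) ^ 2))) :=
            mul_le_mul_of_nonneg_right hmu2 (by positivity)
        _ = (σ + 1) / (4 * (m : ℝ) ^ 2) := by
            have : (k : ℝ) ≠ 0 := by positivity
            field_simp
        _ ≤ 2 := hσm
    have h6 : (k : ℝ) * (Real.log (((2 * m + 1) ^ 2 : ℕ) : ℝ) + 8) = 2 * (k * σ) - k := by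
      have h7 : Real.log (((2 * m + 1) ^ 2 : ℕ) : ℝ) = 2 * σ - 9 := by linarith only [hσ2]
      rw [h7]; ring
    rw [h6]
    linarith only [h4, h5, hmu1, hk0]
  have h2ky : 1 + 2 * k ≤ (2 * k * m) ^ 2 := by
    have h3 : 2 * k ≤ 2 * k * m := Nat.le_mul_of_pos_right _ (by omega)
    omega
  generalize (2 * k * m) ^ 2 = y at *
  have hyR : (16 : ℝ) ≤ y := by exact_mod_cast hy16
  have hLy : (y : ℝ) ^ (2 * k + 2 + (K + 1) * r) ≤ L := by
    refine le_trans ?_ hL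
    rw [← Real.log_le_iff_le_exp (by positivity), Real.log_pow]
    exact h2
  have hcore := sq_core P (fun p hp => ⟨(hPmem p hp).1, (hPmem p hp).2.1⟩) (k := k) (m := m)
    (by
      intro p hp
      have h1 := (hPmem p hp).2.2.1
      omega) (y ^ K) (Nat.one_le_pow _ _ (by omega)) (fun p hp => (hPmem p hp).2.2.2) r hreven
    (by linarith only [hr1, hmu2]) L s0 t0
    (X.image (fun z : {z : GaussianInt // Prime z} => (z : GaussianInt))) (by
      intro x hx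
      rw [Finset.mem_image] at hx
      obtain ⟨z, hz, rfl⟩ := hx
      have h1 := hX z hz
      exact ⟨⟨h1.2.2.1, h1.2.2.2.1⟩, h1.1, h1.2.1⟩) (by
      intro x hx
      rw [Finset.mem_image] at hx
      obtain ⟨z, hz, rfl⟩ := hx
      exact hpat z hz)
  rw [Finset.card_image_of_injective _ Subtype.val_injective] at hcore
  refine le_trans hcore ?_
  have hE : (1 + (2 * k : ℕ) * (P.card : ℝ)) ^ r ≤ (y : ℝ) ^ ((K + 1) * r) :=
    err_bound (r := r) (k := 2 * k) (by linarith only [hyR] : (1 : ℝ) ≤ y)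
      (Nat.cast_nonneg P.card) hPcard (by
        exact_mod_cast h2ky)
  have hKr : K ≤ (K + 1) * r := by
    have : K * 1 ≤ (K + 1) * r := Nat.mul_le_mul (by omega) hrpos
    omega
  have hW : (((y ^ K : ℕ) : ℝ)) ^ r ≤ (y : ℝ) ^ ((K + 1) * r) := by
    push_cast
    rw [← pow_mul]
    exact pow_le_pow_right₀ (by linarith only [hyR]) (Nat.mul_le_mul_right r (by omega))
  have hnum := sq_num hk (Δ := (((2 * m + 1) ^ 2 : ℕ) : ℝ)) (y := y)
    (E := (1 + (2 * k : ℕ) * (P.card : ℝ)) ^ r) (L := L)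
    (mu := ∑ p ∈ P, (2 * ((k : ℝ) / p) - ((k : ℝ) / p) ^ 2))
    (Z := ((2 * (y ^ K + k * m) + 1 : ℕ) : ℝ)) (W := (((y ^ K : ℕ) : ℝ)) ^ r)
    (by exact_mod_cast hΔ9) (by exact_mod_cast hΔy)
    hyR ((K + 1) * r) K (by (clear * - hk; positivity)) hE hKr (by (clear * -; positivity)) (by
      have h5 : 2 * (y ^ K + k * m) + 1 ≤ 3 * y ^ K := by
        have h6 : y ≤ y ^ K := Nat.le_self_pow (by omega) y
        have h7 : 2 * (k * m) = 2 * k * m := by ring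
        (clear * - hy16 hy4 h6 h7; omega)
      exact_mod_cast h5) (by (clear * -; positivity)) hW hLy hmu3
  refine le_trans (le_of_eq ?_) hnum
  push_cast
  ring

/-- Disc version of the count. -/
theorem disc_count_exp {e : ℝ} (he : 2 < e) : ∃ C : ℝ, 0 < C ∧ ∀ (D : ℝ), 1 ≤ D → ∀ k : ℕ,
    2 ≤ k → ∀ R : ℝ, 1 ≤ R → Real.exp (C * D ^ e * (k * Real.log k)) ≤ R →
    ∀ (z₀ : ℂ) (X : Finset {z : GaussianInt // Prime z}),
    (∀ z ∈ X, dist (GaussianInt.toComplex z) z₀ ≤ R ∧ StartsPath D k z) →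
    (X.card : ℝ) ≤ 25 * R ^ 2 * Real.exp (-k) := by
  obtain ⟨C, hC, h⟩ := square_count_exp he
  refine ⟨C, hC, ?_⟩
  intro D hD k hk R hR hexp z₀ X hX
  have hL1 : 2 * R + 2 ≤ ((⌈2 * R⌉₊ + 2 : ℕ) : ℝ) := by
    push_cast
    linarith only [Nat.le_ceil (2 * R)]
  have hL2 : ((⌈2 * R⌉₊ + 2 : ℕ) : ℝ) ≤ 5 * R := by
    push_cast
    linarith only [hR, Nat.ceil_lt_add_one (show 0 ≤ 2 * R by linarith)]
  set L : ℕ := ⌈2 * R⌉₊ + 2 with hL
  have key : ∀ (a : ℤ) (x : ℝ), |(a : ℝ) - x| ≤ R → ⌊x - R⌋ ≤ a ∧ a < ⌊x - R⌋ + L := by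
    intro a x hax
    rw [abs_le] at hax
    constructor
    · have h1 : ((⌊x - R⌋ : ℤ) : ℝ) ≤ a := le_trans (Int.floor_le _) (by linarith only [hax])
      exact_mod_cast h1
    · have h2 : (a : ℝ) < ((⌊x - R⌋ + L : ℤ) : ℝ) := by
        push_cast
        have h3 := Int.lt_floor_add_one (x - R)
        linarith only [hL1, hax, h3]
      exact_mod_cast h2
  have h1 := h D hD k hk L (by linarith only [hexp, hL1]) ⌊z₀.im - R⌋ ⌊z₀.re - R⌋ X (by
    intro z hz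
    obtain ⟨hz1, hz2⟩ := hX z hz
    obtain ⟨h3, h4⟩ := key z.1.im z₀.im ((im_sub_le z.1 z₀).trans hz1)
    obtain ⟨h5, h6⟩ := key z.1.re z₀.re ((re_sub_le z.1 z₀).trans hz1)
    exact ⟨h3, h4, h5, h6, hz2⟩)
  refine h1.trans ?_
  apply mul_le_mul_of_nonneg_right _ (Real.exp_pos _).le
  nlinarith only [hL2]

/-- The shifted number of steps: it absorbs the factor `400 D` at the cost of `D ^ δ`. -/
theorem shift_exp {C e δ : ℝ} (hC : 0 < C) (hδ : 0 < δ) : ∃ C' : ℝ, 1 ≤ C' ∧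
    ∀ {D : ℝ}, 1 ≤ D → ∀ {k : ℕ}, 2 ≤ k →
    ∃ m : ℕ, 2 ≤ m ∧ k ≤ m ∧ 400 * D * Real.exp (-(m : ℝ)) ≤ Real.exp (-(k : ℝ)) ∧
      C * D ^ e * (m * Real.log m) ≤ C' * D ^ (e + 2 * δ) * (k * Real.log k) ∧
      (m : ℝ) ≤ 5 * (k * D) := by
  set q : ℝ := 5 + 1 / δ with hq
  have hq0 : 0 < q := by rw [hq]; positivity
  refine ⟨2 * C * q ^ 2 + 1, by linarith [show 0 < 2 * C * q ^ 2 by positivity], ?_⟩
  intro D hD k hk
  have hD0 : 0 < D := by linarith
  have hk2 : (2 : ℝ) ≤ k := by exact_mod_cast hk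
  have hlogD0 : 0 ≤ Real.log D := Real.log_nonneg hD
  have hlogD : Real.log D ≤ D - 1 := Real.log_le_sub_one_of_pos hD0
  have hlogDδ : Real.log D ≤ D ^ δ / δ := Real.log_le_rpow_div hD0.le hδ
  have hDδ : 1 ≤ D ^ δ := Real.one_le_rpow hD hδ.le
  have hlog5 : Real.log 5 ≤ 1.65 := by
    rw [Real.log_le_iff_le_exp (by norm_num)]
    have h3 : (2.7182818283 : ℝ) < Real.exp 1 := Real.exp_one_gt_d9
    have h4 : Real.exp 1.65 = Real.exp 1 * Real.exp 0.65 := by rw [← Real.exp_add]; norm_num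
    have h5 : (1 : ℝ) + 0.65 + 0.65 ^ 2 / 2 ≤ Real.exp 0.65 :=
      Real.quadratic_le_exp_of_nonneg (by norm_num)
    have h6 : (2.718 : ℝ) * (1 + 0.65 + 0.65 ^ 2 / 2) ≤ Real.exp 1 * Real.exp 0.65 :=
      mul_le_mul (by linarith) h5 (by norm_num) (Real.exp_pos _).le
    rw [h4]
    refine le_trans (by norm_num) h6
  have h400 : Real.log 400 ≤ 6.1 := by
    have h1 : Real.log 400 = 4 * Real.log 2 + 2 * Real.log 5 := by
      rw [show (400 : ℝ) = 2 ^ 4 * 5 ^ 2 by norm_num, Real.log_mul (by norm_num) (by norm_num),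
        Real.log_pow, Real.log_pow]
      push_cast; ring
    have h3 := Real.log_two_lt_d9
    rw [h1]; linarith
  set m : ℕ := k + ⌈Real.log (400 * D)⌉₊ with hm
  have hL : Real.log (400 * D) = Real.log 400 + Real.log D :=
    Real.log_mul (by norm_num) hD0.ne'
  have hL0 : 0 ≤ Real.log (400 * D) := Real.log_nonneg (by linarith)
  have hm1 : (k : ℝ) + Real.log (400 * D) ≤ m := by
    rw [hm]; push_cast; linarith [Nat.le_ceil (Real.log (400 * D))]
  have hm2 : (m : ℝ) ≤ k + 7.1 + Real.log D := by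
    have := Nat.ceil_lt_add_one hL0
    rw [hm]; push_cast
    linarith
  have hm3 : (m : ℝ) ≤ 5 * (k * D) := by nlinarith
  have hm0 : (0 : ℝ) < m := by linarith
  have hlogk : 0.69 ≤ Real.log k := by
    have h1 := Real.log_le_log (by norm_num) hk2
    linarith [Real.log_two_gt_d9]
  refine ⟨m, by omega, by omega, ?_, ?_, hm3⟩
  · have h1 : 400 * D = Real.exp (Real.log (400 * D)) := (Real.exp_log (by linarith)).symm
    rw [h1, ← Real.exp_add]
    apply Real.exp_le_exp.2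
    linarith
  · set w : ℝ := 5 + Real.log D with hw
    have hw5 : 5 ≤ w := by rw [hw]; linarith
    have hmw : (m : ℝ) ≤ k * w := by
      rw [hw]; nlinarith
    have hlogw : Real.log w ≤ w - 1 := Real.log_le_sub_one_of_pos (by linarith)
    have hlogm : Real.log m ≤ 2 * (w * Real.log k) := by
      have h1 : Real.log m ≤ Real.log (k * w) := Real.log_le_log hm0 hmw
      rw [Real.log_mul (by linarith) (by linarith)] at h1
      nlinarith
    have hwq : w ≤ q * D ^ δ := by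
      have h1 : q * D ^ δ = 5 * D ^ δ + D ^ δ / δ := by rw [hq]; ring
      rw [h1, hw]; linarith
    have hlogm0 : 0 ≤ Real.log m := Real.log_nonneg (by linarith)
    have hlk0 : 0 ≤ k * Real.log k := by positivity
    have hw2 : w * w ≤ (q * D ^ δ) * (q * D ^ δ) :=
      mul_le_mul hwq hwq (by linarith) (by positivity)
    have hprod : m * Real.log m ≤ 2 * ((q * D ^ δ) * (q * D ^ δ)) * (k * Real.log k) := by
      calc m * Real.log m ≤ (k * w) * (2 * (w * Real.log k)) :=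
            mul_le_mul hmw hlogm hlogm0 (by positivity)
        _ = 2 * (w * w) * (k * Real.log k) := by ring
        _ ≤ _ := by
            apply mul_le_mul_of_nonneg_right _ hlk0
            linarith
    have hpow : D ^ e * (D ^ δ * D ^ δ) = D ^ (e + 2 * δ) := by
      rw [← Real.rpow_add hD0, ← Real.rpow_add hD0]
      congr 1; ring
    have hDe : 0 < D ^ (e + 2 * δ) := Real.rpow_pos_of_pos hD0 _
    calc C * D ^ e * (m * Real.log m)
        ≤ C * D ^ e * (2 * ((q * D ^ δ) * (q * D ^ δ)) * (k * Real.log k)) :=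
          mul_le_mul_of_nonneg_left hprod (by positivity)
      _ = (2 * C * q ^ 2) * (D ^ e * (D ^ δ * D ^ δ)) * (k * Real.log k) := by ring
      _ = (2 * C * q ^ 2) * D ^ (e + 2 * δ) * (k * Real.log k) := by rw [hpow]
      _ ≤ (2 * C * q ^ 2 + 1) * D ^ (e + 2 * δ) * (k * Real.log k) := by
          apply mul_le_mul_of_nonneg_right _ hlk0
          apply mul_le_mul_of_nonneg_right _ hDe.le
          linarith

/-- Few starts of long paths, with the factor `400 D` absorbed. -/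
theorem start_count_exp {e : ℝ} (he : 2 < e) : ∃ C : ℝ, 1 ≤ C ∧ ∀ (D : ℝ), 1 ≤ D → ∀ k : ℕ,
    2 ≤ k → ∃ m : ℕ, 2 ≤ m ∧ k ≤ m ∧ (m : ℝ) ≤ 5 * (k * D) ∧ ∀ R : ℝ, 1 ≤ R →
    Real.exp (C * D ^ e * (k * Real.log k)) ≤ R →
    ∀ (z₀ : ℂ) (X : Finset {z : GaussianInt // Prime z}),
    (∀ z ∈ X, dist (GaussianInt.toComplex z) z₀ ≤ R ∧ StartsPath D m z) →
    (X.card : ℝ) * (16 * D) ≤ R ^ 2 * Real.exp (-(k : ℝ)) := by
  obtain ⟨C, hC, h⟩ := disc_count_exp (show 2 < (e + 2) / 2 by linarith)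
  obtain ⟨C', hC', hsh⟩ := shift_exp (C := C) (e := (e + 2) / 2) (δ := (e - 2) / 4) hC
    (by linarith)
  refine ⟨C', hC', ?_⟩
  intro D hD k hk
  obtain ⟨m, hm, hkm, h1, h2, h3⟩ := hsh hD hk
  have he' : (e + 2) / 2 + 2 * ((e - 2) / 4) = e := by ring
  rw [he'] at h2
  refine ⟨m, hm, hkm, h3, ?_⟩
  intro R hR hexp z₀ X hX
  have h4 := h D hD m hm R hR ((Real.exp_le_exp.2 h2).trans hexp) z₀ X hX
  calc (X.card : ℝ) * (16 * D) ≤ (25 * R ^ 2 * Real.exp (-(m : ℝ))) * (16 * D) :=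
        mul_le_mul_of_nonneg_right h4 (by linarith)
    _ = R ^ 2 * (400 * D * Real.exp (-(m : ℝ))) := by ring
    _ ≤ R ^ 2 * Real.exp (-(k : ℝ)) := mul_le_mul_of_nonneg_left h1 (by positivity)

end Vale.Agent.P015.R3.H7
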