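import Vale.Agent.P015.R3.H7.E.Loc
import Vale.Agent.P015.R3.H7.Moat

/-!
Components and local moats with every exponent `e > 2`.
-/

open Finset Filter Topology

namespace Vale.Agent.P015.R3.H7

open Vale.Agent.P015

theorem const_mono_exp {e C₁ C D x : ℝ} (hC : C₁ ≤ C) (hD : 1 ≤ D) (hx : 0 ≤ x) :
    C₁ * D ^ e * x ≤ C * D ^ e * x := by
  apply mul_le_mul_of_nonneg_right _ hx
  exact mul_le_mul_of_nonneg_right hC (Real.rpow_nonneg (by linarith) _)

/-- The radius is large. -/
theorem radius_large_exp {e C D R : ℝ} (he : 1 ≤ e) (hC : 20 ≤ C) (hD : 1 ≤ D) {k : ℕ} (hk : 2 ≤ k)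
    (h : Real.exp (C * D ^ e * (k * Real.log k)) ≤ R) :
    11 * k * D ^ 2 * Real.exp (k / 2 : ℝ) ≤ R := by
  have hD0 : 0 < D := by linarith
  have hk2 : (2 : ℝ) ≤ k := by exact_mod_cast hk
  refine le_trans ?_ h
  have hlogk : 0.69 ≤ Real.log k := by
    have h1 := Real.log_le_log (by norm_num) hk2
    linarith [Real.log_two_gt_d9]
  have hlogD : Real.log D ≤ D - 1 := Real.log_le_sub_one_of_pos hD0
  have hlogk2 : Real.log k ≤ k - 1 := Real.log_le_sub_one_of_pos (by linarith)
  have h11 : Real.log 11 ≤ 2.78 := by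
    have h1 : Real.log 11 ≤ Real.log (16 : ℝ) := Real.log_le_log (by norm_num) (by norm_num)
    have h2 : Real.log 16 = 4 * Real.log 2 := by
      rw [show (16 : ℝ) = 2 ^ 4 by norm_num, Real.log_pow]; push_cast; ring
    linarith [Real.log_two_lt_d9]
  have hlhs : 11 * k * D ^ 2 * Real.exp (k / 2 : ℝ) =
      Real.exp (Real.log 11 + Real.log k + 2 * Real.log D + k / 2) := by
    rw [Real.exp_add, Real.exp_add, Real.exp_add, Real.exp_log (by norm_num),
      Real.exp_log (by linarith), two_mul, Real.exp_add, Real.exp_log hD0]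
    ring
  rw [hlhs]
  apply Real.exp_le_exp.2
  have hDC : D ≤ D ^ e := by
    calc D = D ^ (1 : ℝ) := (Real.rpow_one D).symm
      _ ≤ D ^ e := Real.rpow_le_rpow_of_exponent_le hD he
  have hkD : k ≤ k * D := by nlinarith
  have h1 : Real.log 11 + Real.log k + 2 * Real.log D + k / 2 ≤ 4 * (k * D) := by nlinarith
  have h2 : 4 * (k * D) ≤ 20 * D * (k * Real.log k) := by
    have : (k * D) * 0.69 ≤ (k * D) * Real.log k :=
      mul_le_mul_of_nonneg_left hlogk (by positivity)
    nlinarith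
  have h3 : 20 * D * (k * Real.log k) ≤ C * D ^ e * (k * Real.log k) := by
    apply mul_le_mul_of_nonneg_right _ (by positivity)
    exact mul_le_mul hC hDC hD0.le (by linarith)
  linarith

/-- **Components.** Every component of `G_D` has at most `R ^ 2 e ^ (-k)` elements in every disc of
radius `R ≥ exp (C D ^ C k log k)`. -/
theorem comp_count_exp {e : ℝ} (he : 2 < e) : ∃ C₀ : ℝ, 1 ≤ C₀ ∧ ∀ C : ℝ, C₀ ≤ C → ∀ D : ℝ, 1 ≤ D → ∀ k : ℕ, 2 ≤ k →
    ∀ R : ℝ, Real.exp (C * D ^ e * (k * Real.log k)) ≤ R → ∀ (z₀ : ℂ)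
    (X : Finset {z : GaussianInt // Prime z}),
    (∀ x ∈ X, ∀ y ∈ X, (moatGraph D).Reachable x y) →
    (∀ x ∈ X, dist (GaussianInt.toComplex x.1) z₀ ≤ R) →
    (X.card : ℝ) ≤ R ^ 2 * Real.exp (-(k : ℝ)) := by
  classical
  obtain ⟨C₁, hC₁, h⟩ := start_count_exp he
  refine ⟨C₁ + 20, by linarith, ?_⟩
  intro C hC D hD k hk R hR z₀ X hX hXR
  have hk2 : (2 : ℝ) ≤ k := by exact_mod_cast hk
  have hkl : 0 ≤ k * Real.log k := mul_nonneg (by linarith) (Real.log_nonneg (by linarith))
  have hR1 : 1 ≤ R := le_trans (Real.one_le_exp (mul_nonneg (mul_nonneg (by linarith)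
    (Real.rpow_nonneg (by linarith) _)) hkl)) hR
  have hRbig := radius_large_exp (by linarith) (by linarith) hD hk hR
  obtain ⟨m, hm, hkm, hmD, hst⟩ := h D hD k hk
  have hR' : Real.exp (C₁ * D ^ e * (k * Real.log k)) ≤ R :=
    (Real.exp_le_exp.2 (const_mono_exp (by linarith) hD hkl)).trans hR
  have hD0 : 0 < D := by linarith
  by_cases hall : ∀ z ∈ X, StartsPath D m z
  · have h1 := hst R hR1 hR' z₀ X (fun z hz => ⟨hXR z hz, hall z hz⟩)
    have h2 : (0 : ℝ) ≤ X.card := Nat.cast_nonneg _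
    nlinarith
  · push Not at hall
    obtain ⟨x, hx, hnot⟩ := hall
    have hclose : ∀ y ∈ X, dist (GaussianInt.toComplex x.1) (GaussianInt.toComplex y.1) ≤ m * D := by
      intro y hy
      by_contra hcon
      push Not at hcon
      obtain ⟨p⟩ := hX x hx y hy
      exact hnot (startsPath_of_far hD0 (by omega) p hcon.le)
    have h1 := near_card (by positivity) x X hclose
    refine h1.trans ?_
    have h2 : 2 * (m * D) + 1 ≤ 11 * k * D ^ 2 := by
      have h3 : (m : ℝ) * D ≤ 5 * (k * D) * D := mul_le_mul_of_nonneg_right hmD hD0.le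
      have h4 : 1 ≤ k * D ^ 2 := by nlinarith
      nlinarith
    have h5 : (11 * k * D ^ 2 * Real.exp (k / 2 : ℝ)) ^ 2 ≤ R ^ 2 :=
      pow_le_pow_left₀ (by positivity) hRbig 2
    have h6 : (Real.exp (k / 2 : ℝ)) ^ 2 * Real.exp (-(k : ℝ)) = 1 := by
      rw [← Real.exp_nat_mul, ← Real.exp_add]
      norm_num
      ring
    calc (2 * (m * D) + 1) ^ 2 ≤ (11 * k * D ^ 2) ^ 2 :=
          pow_le_pow_left₀ (by positivity) h2 2
      _ = (11 * k * D ^ 2) ^ 2 * ((Real.exp (k / 2 : ℝ)) ^ 2 * Real.exp (-(k : ℝ))) := by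
          rw [h6, mul_one]
      _ = (11 * k * D ^ 2 * Real.exp (k / 2 : ℝ)) ^ 2 * Real.exp (-(k : ℝ)) := by ring
      _ ≤ R ^ 2 * Real.exp (-(k : ℝ)) := mul_le_mul_of_nonneg_right h5 (Real.exp_pos _).le

/-- **Local moats.** For `R ≥ exp (C D ^ C k log k)` and every centre `z₀`, the disc of radius `R`
is cut off from the outside of the disc of radius `2 R` by removing at most `R e ^ (-k)` Gaussian
primes. -/
theorem local_moat_exp {e : ℝ} (he : 2 < e) : ∃ C₀ : ℝ, 1 ≤ C₀ ∧ ∀ C : ℝ, C₀ ≤ C → ∀ D : ℝ, 1 ≤ D → ∀ k : ℕ, 2 ≤ k →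
    ∀ R : ℝ, Real.exp (C * D ^ e * (k * Real.log k)) ≤ R → ∀ z₀ : ℂ,
    ∃ F : Finset {z : GaussianInt // Prime z},
      (∀ z ∈ F, R ≤ dist (GaussianInt.toComplex z.1) z₀ ∧
        dist (GaussianInt.toComplex z.1) z₀ ≤ 2 * R) ∧
      (F.card : ℝ) ≤ R * Real.exp (-(k : ℝ)) ∧
      ∀ (z w : {z : GaussianInt // Prime z}) (p : (moatGraph D).Walk z w),
        dist (GaussianInt.toComplex z.1) z₀ < R → 2 * R < dist (GaussianInt.toComplex w.1) z₀ →
        ∃ v ∈ p.support, v ∈ F := by
  classical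
  obtain ⟨C₁, hC₁, h⟩ := start_count_exp he
  refine ⟨C₁ + 20, by linarith, ?_⟩
  intro C hC D hD k hk R hR z₀
  have hk2 : (2 : ℝ) ≤ k := by exact_mod_cast hk
  have hkl : 0 ≤ k * Real.log k := mul_nonneg (by linarith) (Real.log_nonneg (by linarith))
  have hR1 : 1 ≤ R := le_trans (Real.one_le_exp (mul_nonneg (mul_nonneg (by linarith)
    (Real.rpow_nonneg (by linarith) _)) hkl)) hR
  have hRbig := radius_large_exp (by linarith) (by linarith) hD hk hR
  obtain ⟨m, hm, hkm, hmD, hst⟩ := h D hD k hk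
  have hR' : Real.exp (C₁ * D ^ e * (k * Real.log k)) ≤ R :=
    (Real.exp_le_exp.2 (const_mono_exp (by linarith) hD hkl)).trans hR
  have hD0 : 0 < D := by linarith
  have hRbig2 : 11 * (k * D ^ 2) ≤ R := by
    refine le_trans ?_ hRbig
    have h1 : 1 ≤ Real.exp (k / 2 : ℝ) := Real.one_le_exp (by positivity)
    have h2 : 0 ≤ 11 * k * D ^ 2 := by positivity
    nlinarith
  have hDk : D ≤ k * D ^ 2 := by nlinarith
  have hR4 : 4 * D ≤ R := by linarith
  have hmR : m * D ≤ R / 2 := by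
    have h3 : (m : ℝ) * D ≤ 5 * (k * D) * D := mul_le_mul_of_nonneg_right hmD hD0.le
    nlinarith
  have hfin : {v : {z : GaussianInt // Prime z} |
      dist (GaussianInt.toComplex v.1) z₀ ≤ 2 * R}.Finite := by
    refine (finite_norm_le (2 * R + ‖z₀‖)).subset ?_
    intro v hv
    rw [Set.mem_ofPred_eq] at hv ⊢
    have h1 : ‖GaussianInt.toComplex v.1‖ ≤ dist (GaussianInt.toComplex v.1) z₀ + ‖z₀‖ := by
      rw [dist_eq_norm]
      have := norm_add_le (GaussianInt.toComplex v.1 - z₀) z₀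
      simpa only [sub_add_cancel] using this
    linarith
  set B : Finset {z : GaussianInt // Prime z} :=
    hfin.toFinset.filter (fun z => StartsPath D m z) with hB
  have hBcard : (B.card : ℝ) * (4 * D) ≤ R ^ 2 * Real.exp (-(k : ℝ)) := by
    have h5 := hst (2 * R) (by linarith) (hR'.trans (by linarith)) z₀ B (by
      intro z hz
      rw [hB, Finset.mem_filter, Set.Finite.mem_toFinset] at hz
      exact ⟨hz.1, hz.2⟩)
    nlinarith
  set J : ℕ := ⌊R / (2 * D)⌋₊ with hJ
  have hJ1 : R / (4 * D) ≤ J := by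
    have h5 := Nat.lt_floor_add_one (R / (2 * D))
    have h6 : 1 ≤ R / (4 * D) := by rw [le_div_iff₀ (by linarith)]; linarith
    have h7 : R / (2 * D) = 2 * (R / (4 * D)) := by field_simp; norm_num
    rw [← hJ] at h5
    linarith
  have hJ2 : (J : ℝ) * D ≤ R / 2 := by
    have h5 : (J : ℝ) ≤ R / (2 * D) := Nat.floor_le (by positivity)
    calc (J : ℝ) * D ≤ R / (2 * D) * D := mul_le_mul_of_nonneg_right h5 hD0.le
      _ = R / 2 := by field_simp
  have hJ0 : 0 < (J : ℝ) := lt_of_lt_of_le (by positivity) hJ1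
  let G : ℕ → Finset {z : GaussianInt // Prime z} := fun j =>
    B.filter (fun z => R + j * D ≤ dist (GaussianInt.toComplex z.1) z₀ ∧
      dist (GaussianInt.toComplex z.1) z₀ < R + j * D + D)
  have hdisj : ∀ i ∈ Finset.range J, ∀ j ∈ Finset.range J, i ≠ j → Disjoint (G i) (G j) := by
    intro i _ j _ hij
    rw [Finset.disjoint_left]
    intro z hz1 hz2
    simp only [mem_filter, G] at hz1 hz2
    rcases lt_or_gt_of_ne hij with hlt | hlt
    · have h5 : ((i : ℝ) + 1) * D ≤ j * D := by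
        apply mul_le_mul_of_nonneg_right _ hD0.le
        exact_mod_cast hlt
      linarith only [hz1, hz2, h5]
    · have h5 : ((j : ℝ) + 1) * D ≤ i * D := by
        apply mul_le_mul_of_nonneg_right _ hD0.le
        exact_mod_cast hlt
      linarith only [hz1, hz2, h5]
  have hsum : ∑ j ∈ Finset.range J, ((G j).card : ℝ) ≤ B.card := by
    have h5 := Finset.card_biUnion hdisj
    have h6 : ((Finset.range J).biUnion G).card ≤ B.card := by
      apply Finset.card_le_card
      intro z hz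
      rw [Finset.mem_biUnion] at hz
      obtain ⟨j, _, hj⟩ := hz
      exact (Finset.mem_filter.1 hj).1
    rw [h5] at h6
    exact_mod_cast h6
  obtain ⟨j, hj, hjc⟩ : ∃ j ∈ Finset.range J, ((G j).card : ℝ) ≤ R * Real.exp (-(k : ℝ)) := by
    by_contra hcon
    push Not at hcon
    have hne : (Finset.range J).Nonempty := by
      rw [Finset.nonempty_range_iff]
      intro h0
      rw [h0] at hJ0
      simp at hJ0
    have h5 : ∑ j ∈ Finset.range J, (R * Real.exp (-(k : ℝ))) <
        ∑ j ∈ Finset.range J, ((G j).card : ℝ) := Finset.sum_lt_sum_of_nonempty hne hcon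
    rw [Finset.sum_const, Finset.card_range, nsmul_eq_mul] at h5
    have h6 : R ^ 2 * Real.exp (-(k : ℝ)) ≤ (J * (R * Real.exp (-(k : ℝ)))) * (4 * D) := by
      have h7 : R ≤ J * (4 * D) := by
        rwa [div_le_iff₀ (by positivity)] at hJ1
      calc R ^ 2 * Real.exp (-(k : ℝ)) = R * (R * Real.exp (-(k : ℝ))) := by ring
        _ ≤ (J * (4 * D)) * (R * Real.exp (-(k : ℝ))) :=
            mul_le_mul_of_nonneg_right h7 (by positivity)
        _ = _ := by ring
    have h8 : (B.card : ℝ) * (4 * D) ≤ (J * (R * Real.exp (-(k : ℝ)))) * (4 * D) := hBcard.trans h6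
    have h9 : (B.card : ℝ) ≤ J * (R * Real.exp (-(k : ℝ))) :=
      le_of_mul_le_mul_right h8 (by positivity)
    linarith
  rw [Finset.mem_range] at hj
  have hj2 : (j : ℝ) * D + D ≤ R / 2 := by
    have h5 : ((j : ℝ) + 1) * D ≤ J * D := by
      apply mul_le_mul_of_nonneg_right _ hD0.le
      exact_mod_cast hj
    linarith
  have hj0 : 0 ≤ (j : ℝ) * D := by positivity
  refine ⟨G j, ?_, hjc, ?_⟩
  · intro z hz
    simp only [G, Finset.mem_filter] at hz
    constructor
    · linarith only [hj0, hz.2.1]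
    · linarith only [hj2, hz.2.2, hR1]
  · intro z w p hz hw
    obtain ⟨v, q, hv1, hv2, hv3⟩ := crossing (r := R + j * D)
      (fun v => dist (GaussianInt.toComplex v.1) z₀) (fun a b hab => dist_centre z₀ a b hab) p
      (by linarith) (by linarith)
    refine ⟨v, hv1, ?_⟩
    simp only [G, Finset.mem_filter]
    refine ⟨?_, hv2, hv3⟩
    rw [hB, Finset.mem_filter, Set.Finite.mem_toFinset]
    refine ⟨?_, startsPath_of_far hD0 (by omega) q ?_⟩
    · rw [Set.mem_ofPred_eq]; linarith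
    · have h5 := dist_triangle (GaussianInt.toComplex w.1) (GaussianInt.toComplex v.1) z₀
      rw [dist_comm (GaussianInt.toComplex v.1)]
      linarith

end Vale.Agent.P015.R3.H7
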