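import Vale.Agent.P015.R3.H7.E.Core

/-!
Numerical lemma for the square count.
-/

open Finset

namespace Vale.Agent.P015.R3.H7

open Vale.Agent.P015

/-- Numerical lemma for the square count. -/
theorem sq_num {k : ℕ} (hk : 2 ≤ k) {Δ y E L mu Z W : ℝ} (hΔ : 9 ≤ Δ) (hΔy : Δ ≤ y)
    (hy : 16 ≤ y) (N K : ℕ) (hE0 : 0 ≤ E) (hE : E ≤ y ^ N) (hKN : K ≤ N)
    (hZ0 : 0 ≤ Z) (hZ : Z ≤ 3 * y ^ K) (hW0 : 0 ≤ W) (hW : W ≤ y ^ N)
    (hL : y ^ (2 * k + 2 + N) ≤ L) (hmu : k * (Real.log Δ + 8) ≤ mu) :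
    Δ ^ k * (2 * L ^ 2 * Real.exp (-mu) + (2 * L + W) * E) + Z ^ 2 ≤ L ^ 2 * Real.exp (-k) := by
  have hΔ0 : 0 < Δ := by linarith only [hΔ]
  have hy0 : 0 < y := by linarith only [hy]
  have hy1 : 1 ≤ y := by linarith only [hy]
  have hL0 : 0 < L := lt_of_lt_of_le (by positivity) hL
  have hek : 0 < Real.exp k := Real.exp_pos _
  have hexpy : Real.exp k ≤ y ^ k :=
    le_trans (exp_le_three_pow k) (pow_le_pow_left₀ (by norm_num) (by linarith only [hy]) k)
  have h1 : Δ ^ k * Real.exp (-mu) ≤ Real.exp (-(8 * k)) := by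
    have h2' : Real.exp (-mu) ≤ Real.exp (-(k * (Real.log Δ + 8))) :=
      Real.exp_le_exp.2 (by linarith only [hmu])
    have h3 : -(k * (Real.log Δ + 8)) = -(k * Real.log Δ) + -(8 * k) := by ring
    have h4 : Real.exp (-(k * Real.log Δ)) = (Δ ^ k)⁻¹ := by
      rw [Real.exp_neg, Real.exp_nat_mul, Real.exp_log hΔ0]
    rw [h3, Real.exp_add, h4] at h2'
    calc Δ ^ k * Real.exp (-mu) ≤ Δ ^ k * ((Δ ^ k)⁻¹ * Real.exp (-(8 * k))) :=
          mul_le_mul_of_nonneg_left h2' (by positivity)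
      _ = _ := by
          have hne : Δ ^ k ≠ 0 := by positivity
          field_simp
  have h6 : Real.exp (-(8 * k)) ≤ (1 / 20) * Real.exp (-k) := by
    have h7 := exp_aux hk
    have h8 : Real.exp (-(8 * k)) = (Real.exp k * Real.exp (-(8 * k))) * Real.exp (-k) := by
      rw [← Real.exp_add, ← Real.exp_add]; ring_nf
    rw [h8]
    exact mul_le_mul_of_nonneg_right h7 (Real.exp_pos _).le
  have h9 : Δ ^ k * (2 * L ^ 2 * Real.exp (-mu)) ≤ (1 / 10) * (L ^ 2 * Real.exp (-k)) := by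
    calc Δ ^ k * (2 * L ^ 2 * Real.exp (-mu)) = 2 * L ^ 2 * (Δ ^ k * Real.exp (-mu)) := by ring
      _ ≤ 2 * L ^ 2 * ((1 / 20) * Real.exp (-k)) :=
          mul_le_mul_of_nonneg_left (le_trans h1 h6) (by positivity)
      _ = _ := by ring
  have hkey : ∀ B : ℝ, 0 ≤ B → 4 * (B * y ^ k) ≤ L ^ 2 →
      B ≤ (1 / 4) * (L ^ 2 * Real.exp (-k)) := by
    intro B hB h
    rw [Real.exp_neg, ← div_eq_mul_inv, mul_comm (1 / 4 : ℝ), mul_one_div, div_div,
      le_div_iff₀ (by positivity)]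
    have : B * Real.exp k ≤ B * y ^ k := mul_le_mul_of_nonneg_left hexpy hB
    linarith only [h, this]
  have hyN : y ^ N ≤ L := le_trans (pow_le_pow_right₀ hy1 (by omega)) hL
  have hWL : 2 * L + W ≤ 3 * L := by linarith only [hW, hyN]
  have h10 : Δ ^ k * ((2 * L + W) * E) ≤ (1 / 4) * (L ^ 2 * Real.exp (-k)) := by
    have h11 : Δ ^ k ≤ y ^ k := pow_le_pow_left₀ hΔ0.le hΔy k
    refine le_trans (b := y ^ k * (3 * L * y ^ N)) ?_ (hkey _ (by positivity) ?_)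
    · apply mul_le_mul h11 _ _ (by positivity)
      · calc (2 * L + W) * E ≤ 3 * L * E := mul_le_mul_of_nonneg_right hWL hE0
          _ ≤ 3 * L * y ^ N := mul_le_mul_of_nonneg_left hE (by positivity)
      · exact mul_nonneg (by linarith only [hW0, hL0]) hE0
    · calc 4 * (y ^ k * (3 * L * y ^ N) * y ^ k) = L * (12 * (y ^ (2 * k + N))) := by ring
        _ ≤ L * (y ^ 2 * y ^ (2 * k + N)) := by
            apply mul_le_mul_of_nonneg_left _ hL0.le
            apply mul_le_mul_of_nonneg_right _ (by positivity)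
            nlinarith only [hy]
        _ = L * y ^ (2 * k + 2 + N) := by ring
        _ ≤ L * L := mul_le_mul_of_nonneg_left hL hL0.le
        _ = L ^ 2 := by ring
  have h12 : Z ^ 2 ≤ (1 / 4) * (L ^ 2 * Real.exp (-k)) := by
    refine hkey _ (by positivity) ?_
    have h13 : y ^ K ≤ y ^ N := pow_le_pow_right₀ hy1 hKN
    have h14 : y ^ k ≤ y ^ (4 * k) := pow_le_pow_right₀ hy1 (by omega)
    have h15 : Z ^ 2 ≤ (3 * y ^ N) ^ 2 :=
      pow_le_pow_left₀ hZ0 (hZ.trans (by linarith only [h13])) 2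
    calc 4 * (Z ^ 2 * y ^ k) ≤ 4 * ((3 * y ^ N) ^ 2 * y ^ (4 * k)) := by
          apply mul_le_mul_of_nonneg_left _ (by norm_num)
          exact mul_le_mul h15 h14 (by positivity) (by positivity)
      _ = 36 * (y ^ (2 * k + N)) ^ 2 := by ring
      _ ≤ (y ^ 2) ^ 2 * (y ^ (2 * k + N)) ^ 2 := by
          apply mul_le_mul_of_nonneg_right _ (by positivity)
          have : (16 : ℝ) ^ 2 ≤ y ^ 2 := pow_le_pow_left₀ (by norm_num) hy 2
          nlinarith only [this]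
      _ = (y ^ (2 * k + 2 + N)) ^ 2 := by ring
      _ ≤ L ^ 2 := pow_le_pow_left₀ (by positivity) hL 2
  have h15 : 0 < L ^ 2 * Real.exp (-k) := by positivity
  have h16 : Δ ^ k * (2 * L ^ 2 * Real.exp (-mu) + (2 * L + W) * E) + Z ^ 2 =
      Δ ^ k * (2 * L ^ 2 * Real.exp (-mu)) + Δ ^ k * ((2 * L + W) * E) + Z ^ 2 := by ring
  rw [h16]
  linarith only [h9, h10, h12, h15]

end Vale.Agent.P015.R3.H7
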