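import Vale.Agent.P015.R3.H7.E.Num

/-!
Square count with explicit parameters, and the final numerical lemma with exponent `e > 2`.
-/

open Finset

namespace Vale.Agent.P015.R3.H7

open Vale.Agent.P015

/-- Square count with explicit parameters. -/
theorem sq_core (P : Finset ℕ) (hP : ∀ p ∈ P, p.Prime ∧ p % 4 = 1) {k m : ℕ}
    (hPk : ∀ p ∈ P, 2 * (k * m) ^ 2 < p ∧ k ≤ p) (Z : ℕ) (hZ1 : 1 ≤ Z) (hZ : ∀ p ∈ P, p ≤ Z)
    (r : ℕ) (hr : Even r) (hmu : 16 * ∑ p ∈ P, (k : ℝ) / p ≤ r + 1)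
    (L : ℕ) (s0 t0 : ℤ) (X : Finset GaussianInt)
    (hX : ∀ x ∈ X, (t0 ≤ x.re ∧ x.re < t0 + L) ∧ (s0 ≤ x.im ∧ x.im < s0 + L))
    (hX' : ∀ x ∈ X, ∃ s : Fin k → GaussianInt, (∀ i, s i ∈ stepBox m) ∧
      (∀ i < k, ∀ j < k, psum s i = psum s j → i = j) ∧ ∀ j < k, Prime (x + psum s j)) :
    (X.card : ℝ) ≤ (((2 * m + 1) ^ 2) ^ k : ℕ) *
      (2 * (L : ℝ) ^ 2 * Real.exp (-∑ p ∈ P, (2 * ((k : ℝ) / p) - ((k : ℝ) / p) ^ 2)) +
      (2 * L + (Z : ℝ) ^ r) * (1 + (2 * k : ℕ) * (P.card : ℝ)) ^ r) +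
      ((2 * (Z + k * m) + 1 : ℕ) : ℝ) ^ 2 := by
  classical
  set E : ℝ := 2 * (L : ℝ) ^ 2 *
    Real.exp (-∑ p ∈ P, (2 * ((k : ℝ) / p) - ((k : ℝ) / p) ^ 2)) +
      (2 * L + (Z : ℝ) ^ r) * (1 + (2 * k : ℕ) * (P.card : ℝ)) ^ r with hE
  have hE0 : 0 ≤ E := by (clear * -; positivity)
  set S : Finset (Fin k → GaussianInt) := Fintype.piFinset (fun _ => stepBox m) with hS
  have hScard : S.card ≤ ((2 * m + 1) ^ 2) ^ k := by
    rw [hS, Fintype.card_piFinset_const]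
    exact Nat.pow_le_pow_left (card_stepBox m) k
  set N : ℕ := Z + k * m with hN
  -- near part
  have hnear : (X.filter (fun x => |x.re| ≤ (N : ℤ) ∧ |x.im| ≤ (N : ℤ))).card ≤
      (2 * N + 1) ^ 2 := by
    refine le_trans ?_ (card_stepBox N)
    apply Finset.card_le_card
    intro x hx
    rw [mem_stepBox]
    exact (Finset.mem_filter.1 hx).2
  -- far part
  set good : (Fin k → GaussianInt) → GaussianInt → Prop := fun s x =>
    (∀ i < k, ∀ j < k, psum s i = psum s j → i = j) ∧ ∀ j < k, Prime (x + psum s j) with hgood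
  set Y : Finset GaussianInt := X.filter (fun x => ¬ (|x.re| ≤ (N : ℤ) ∧ |x.im| ≤ (N : ℤ))) with hY
  have hYX : Y ⊆ X := Finset.filter_subset _ _
  have hsub : Y ⊆ S.biUnion (fun s => Y.filter (good s)) := by
    intro x hx
    obtain ⟨s, hs1, hs2, hs3⟩ := hX' x (hYX hx)
    rw [Finset.mem_biUnion]
    exact ⟨s, Fintype.mem_piFinset.2 hs1, Finset.mem_filter.2 ⟨hx, hs2, hs3⟩⟩
  have hcard : (Y.card : ℝ) ≤ ∑ s ∈ S, ((Y.filter (good s)).card : ℝ) := by
    have h1 := le_trans (Finset.card_le_card hsub) Finset.card_biUnion_le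
    exact_mod_cast h1
  have hbound : ∀ s ∈ S, ((Y.filter (good s)).card : ℝ) ≤ E := by
    intro s hs
    have hs' : ∀ i, s i ∈ stepBox m := fun i => Fintype.mem_piFinset.1 hs i
    by_cases hinj : ∀ i < k, ∀ j < k, psum s i = psum s j → i = j
    · apply box_count P hP hPk Z hZ1 hZ s hs' hinj t0 s0 L r hr hmu
      intro x hx
      rw [Finset.mem_filter] at hx
      obtain ⟨hx1, -, hx2⟩ := hx
      obtain ⟨g1, g2⟩ := hX x (hYX hx1)
      have hfar := (Finset.mem_filter.1 hx1).2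
      refine ⟨g1, g2, fun j hj => ⟨hx2 j hj, ?_⟩⟩
      have hb : |(psum s j).re| ≤ k * m ∧ |(psum s j).im| ≤ k * m := by
        have h := psum_bound s hs' 0 j (Nat.zero_le j) hj
        have h0 : psum s 0 = 0 := by simp [psum]
        rw [h0, sub_zero] at h
        exact h
      have h8 : (x + psum s j).norm = (x + psum s j).re ^ 2 + (x + psum s j).im ^ 2 := by
        simp [Zsqrtd.norm]; ring
      rw [h8]
      rw [not_and_or, not_le, not_le] at hfar
      rcases hfar with hfar | hfar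
      · have h5 : (Z : ℤ) < |(x + psum s j).re| := by
          rw [Zsqrtd.re_add]
          have h6 : |x.re| - |(psum s j).re| ≤ |x.re + (psum s j).re| := by
            have := abs_sub_abs_le_abs_sub x.re (-(psum s j).re)
            rw [abs_neg, sub_neg_eq_add] at this
            exact this
          have hb1 := hb.1
          rw [hN] at hfar
          push_cast at hfar
          omega
        have h7 : (Z : ℤ) ^ 2 < (x + psum s j).re ^ 2 := by
          rw [← sq_abs (x + psum s j).re]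
          exact pow_lt_pow_left₀ h5 (Int.natCast_nonneg Z) (by norm_num)
        nlinarith only [h7]
      · have h5 : (Z : ℤ) < |(x + psum s j).im| := by
          rw [Zsqrtd.im_add]
          have h6 : |x.im| - |(psum s j).im| ≤ |x.im + (psum s j).im| := by
            have := abs_sub_abs_le_abs_sub x.im (-(psum s j).im)
            rw [abs_neg, sub_neg_eq_add] at this
            exact this
          have hb1 := hb.2
          rw [hN] at hfar
          push_cast at hfar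
          omega
        have h7 : (Z : ℤ) ^ 2 < (x + psum s j).im ^ 2 := by
          rw [← sq_abs (x + psum s j).im]
          exact pow_lt_pow_left₀ h5 (Int.natCast_nonneg Z) (by norm_num)
        nlinarith only [h7]
    · have : Y.filter (good s) = ∅ := by
        rw [Finset.filter_eq_empty_iff]
        intro x _ hx
        exact hinj hx.1
      rw [this]
      simpa only [card_empty, CharP.cast_eq_zero, ge_iff_le] using hE0
  have hYcard : (Y.card : ℝ) ≤ (((2 * m + 1) ^ 2) ^ k : ℕ) * E := by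
    refine le_trans hcard (le_trans (Finset.sum_le_sum hbound) ?_)
    rw [Finset.sum_const, nsmul_eq_mul]
    exact mul_le_mul_of_nonneg_right (by exact_mod_cast hScard) hE0
  have hsplit : X.card = (X.filter (fun x => |x.re| ≤ (N : ℤ) ∧ |x.im| ≤ (N : ℤ))).card +
      Y.card := by
    rw [hY, Finset.card_filter_add_card_filter_not]
  rw [hsplit]
  have hnear' : ((X.filter (fun x => |x.re| ≤ (N : ℤ) ∧ |x.im| ≤ (N : ℤ))).card : ℝ) ≤
      ((2 * N + 1 : ℕ) : ℝ) ^ 2 := by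
    exact_mod_cast hnear
  rw [Nat.cast_add]
  linarith only [hYcard, hnear']

theorem n_bound {k K r : ℕ} {AB q X Y : ℝ} (hAB : 0 < AB) (hk : (2 : ℝ) ≤ k) (hq : 7 ≤ q)
    (hX : 1 ≤ X) (hY : 1 ≤ Y) (hK1 : (1 : ℝ) ≤ K) (hr0 : (0 : ℝ) ≤ r) (hK : (K : ℝ) ≤ AB * X)
    (hr : (r : ℝ) ≤ 17 * q * (k * Y)) :
    (((2 * k + 2 + (K + 1) * r : ℕ)) : ℝ) ≤ (4 + 2 * AB) * (17 * q) * (k * (X * Y)) := by
  push_cast
  have h1 : ((K : ℝ) + 1) ≤ 2 * (AB * X) := by linarith only [hK, hK1]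
  have h2 : ((K : ℝ) + 1) * r ≤ 2 * (AB * X) * (17 * q * (k * Y)) :=
    mul_le_mul h1 hr hr0 (by positivity)
  have h3 : (1 : ℝ) ≤ X * Y := by nlinarith only [hX, hY]
  have h4 : (k : ℝ) * 1 ≤ k * (X * Y) := mul_le_mul_of_nonneg_left h3 (by linarith only [hk])
  have h5 : (k : ℝ) * (X * Y) ≤ (17 * q) * (k * (X * Y)) := by
    have h6 : 0 ≤ (k : ℝ) * (X * Y) := by linarith only [h4, hk]
    nlinarith only [h6, hq]
  have h7 : (4 + 2 * AB) * (17 * q) * (k * (X * Y)) =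
      4 * ((17 * q) * (k * (X * Y))) + 2 * (AB * X) * (17 * q * (k * Y)) := by ring
  rw [h7]
  linarith only [h2, h4, h5, hk]

/-- Final numerical lemma. -/
theorem sq_final {e : ℝ} (he : 2 < e) : ∃ C : ℝ, 0 < C ∧ ∀ {D : ℝ}, 1 ≤ D → ∀ {k : ℕ}, 2 ≤ k →
    ∀ m : ℕ, 1 ≤ m → (m : ℝ) ≤ D → ∃ σ : ℝ, 0 ≤ σ ∧
    2 * σ = Real.log (((2 * m + 1) ^ 2 : ℕ) : ℝ) + 9 ∧ (σ + 1) / (4 * (m : ℝ) ^ 2) ≤ 2 ∧
    ∃ K : ℕ, 1 ≤ K ∧ (∀ y : ℕ, 2 ≤ y → σ ≤ ∑ p ∈ (Finset.Ioc y (y ^ K)).filter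
      (fun p => p.Prime ∧ p % 4 = 1), (1 : ℝ) / p) ∧
    ∀ r : ℕ, 1 ≤ r → (r : ℝ) ≤ 17 * (k * (σ + 1)) →
    ((2 * k + 2 + (K + 1) * r : ℕ) : ℝ) * Real.log (((2 * k * m) ^ 2 : ℕ) : ℝ) ≤
      C * D ^ e * (k * Real.log k) := by
  set ε : ℝ := (e - 2) / 3 with hε
  have hε0 : 0 < ε := by rw [hε]; linarith
  obtain ⟨A, hA, hM⟩ := mertens_half ε hε0
  set B : ℝ := Real.exp ((2 + ε) * 6) with hB
  have hB0 : 0 < B := Real.exp_pos _
  set q : ℝ := 7 + 1 / ε with hq
  have hq0 : 0 < q := by rw [hq]; positivity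
  have hq7 : 7 ≤ q := by rw [hq]; linarith [show 0 < 1 / ε by positivity]
  refine ⟨((4 + 2 * (A * B)) * (17 * q)) * (4 * q), by positivity, ?_⟩
  intro D hD k hk m hm hmD
  have hk2 : (2 : ℝ) ≤ k := by exact_mod_cast hk
  have hm1 : (1 : ℝ) ≤ m := by exact_mod_cast hm
  have hD0 : 0 < D := by linarith only [hD]
  have hlogD0 : 0 ≤ Real.log D := Real.log_nonneg hD
  have hlogDε : Real.log D ≤ D ^ ε / ε := Real.log_le_rpow_div hD0.le hε0
  have hDε : 1 ≤ D ^ ε := Real.one_le_rpow hD hε0.le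
  have hqD : ∀ x : ℝ, 0 ≤ x → x ≤ 7 → x + Real.log D ≤ q * D ^ ε := by
    intro x hx hx7
    have h1 : q * D ^ ε = 7 * D ^ ε + D ^ ε / ε := by rw [hq]; ring
    rw [h1]
    linarith only [hx7, hDε, hlogDε]
  have hlogk : 1 / 2 ≤ Real.log k := by
    have h1 : Real.log 2 ≤ Real.log k := Real.log_le_log (by norm_num) hk2
    linarith only [h1, Real.log_two_gt_d9]
  set σ : ℝ := (Real.log (((2 * m + 1) ^ 2 : ℕ) : ℝ) + 9) / 2 with hσ
  have hσ2 : 2 * σ = Real.log (((2 * m + 1) ^ 2 : ℕ) : ℝ) + 9 := by rw [hσ]; ring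
  have hlΔ : Real.log (((2 * m + 1) ^ 2 : ℕ) : ℝ) = 2 * Real.log (2 * m + 1) := by
    push_cast
    rw [Real.log_pow]; push_cast; ring
  have hl0 : 0 ≤ Real.log (2 * (m : ℝ) + 1) := Real.log_nonneg (by linarith)
  have hσeq : σ = Real.log (2 * m + 1) + 9 / 2 := by rw [hσ, hlΔ]; ring
  have hσ0 : 0 ≤ σ := by rw [hσeq]; linarith
  have hσD : σ ≤ 6 + Real.log D := by
    have h1 : Real.log (2 * m + 1) ≤ Real.log (3 * D) :=
      Real.log_le_log (by linarith) (by linarith)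
    rw [Real.log_mul (by norm_num) hD0.ne'] at h1
    have h3 : Real.log 3 ≤ 5 / 4 := by
      rw [Real.log_le_iff_le_exp (by norm_num)]
      have h4 : (1 : ℝ) + 5 / 4 + (5 / 4) ^ 2 / 2 ≤ Real.exp (5 / 4) :=
        Real.quadratic_le_exp_of_nonneg (by norm_num)
      norm_num at h4
      linarith only [h4]
    rw [hσeq]; linarith
  have hσm : (σ + 1) / (4 * (m : ℝ) ^ 2) ≤ 2 := by
    rw [div_le_iff₀ (by positivity)]
    have h1 : Real.log (2 * m + 1) ≤ 2 * m := by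
      have := Real.log_le_sub_one_of_pos (show 0 < 2 * (m : ℝ) + 1 by positivity)
      linarith only [this]
    rw [hσeq]
    nlinarith only [h1, hm1]
  obtain ⟨K, hK1, hK2, hK3⟩ := hM σ hσ0
  refine ⟨σ, hσ0, hσ2, hσm, K, hK1, hK3, ?_⟩
  intro r hr1 hr
  have hK4 : (K : ℝ) ≤ A * B * D ^ (2 + ε) := by
    refine hK2.trans ?_
    rw [mul_assoc]
    apply mul_le_mul_of_nonneg_left _ hA.le
    rw [hB, Real.rpow_def_of_pos hD0, ← Real.exp_add]
    apply Real.exp_le_exp.2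
    have h1 : (2 + ε) * σ ≤ (2 + ε) * (6 + Real.log D) :=
      mul_le_mul_of_nonneg_left hσD (by linarith only [hε0])
    linarith only [h1]
  have hK1R : (1 : ℝ) ≤ K := by exact_mod_cast hK1
  have hr1R : (1 : ℝ) ≤ r := by exact_mod_cast hr1
  have hD2 : 1 ≤ D ^ (2 + ε) := Real.one_le_rpow hD (by linarith)
  have hr2 : (r : ℝ) ≤ 17 * q * (k * D ^ ε) := by
    refine hr.trans ?_
    have h1 : σ + 1 ≤ q * D ^ ε := by
      have := hqD 7 (by norm_num) le_rfl
      linarith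
    calc 17 * (k * (σ + 1)) ≤ 17 * (k * (q * D ^ ε)) := by
          apply mul_le_mul_of_nonneg_left _ (by norm_num)
          exact mul_le_mul_of_nonneg_left h1 (by linarith)
      _ = _ := by ring
  have hlogy : Real.log (((2 * k * m) ^ 2 : ℕ) : ℝ) ≤ 4 * q * (D ^ ε * Real.log k) := by
    have h1 : (((2 * k * m) ^ 2 : ℕ) : ℝ) ≤ (2 * k * D) ^ 2 := by
      push_cast
      apply pow_le_pow_left₀ (by positivity)
      exact mul_le_mul_of_nonneg_left hmD (by positivity)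
    have h2 : Real.log (((2 * k * m) ^ 2 : ℕ) : ℝ) ≤ Real.log ((2 * k * D) ^ 2) := by
      apply Real.log_le_log _ h1
      have : 0 < (2 * k * m) ^ 2 := by positivity
      exact_mod_cast this
    rw [Real.log_pow, Real.log_mul (by positivity) (by positivity),
      Real.log_mul (by norm_num) (by positivity), Nat.cast_ofNat] at h2
    have h3 : Real.log 2 ≤ Real.log k := Real.log_le_log (by norm_num) hk2
    have h4 : Real.log D ≤ 2 * (Real.log D * Real.log k) := by nlinarith only [hlogD0, hlogk]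
    have h5 : 1 + Real.log D ≤ q * D ^ ε := hqD 1 (by norm_num) (by norm_num)
    calc Real.log (((2 * k * m) ^ 2 : ℕ) : ℝ) ≤ 4 * ((1 + Real.log D) * Real.log k) := by
          nlinarith only [h2, h3, h4]
      _ ≤ 4 * ((q * D ^ ε) * Real.log k) := by
          apply mul_le_mul_of_nonneg_left _ (by norm_num)
          exact mul_le_mul_of_nonneg_right h5 (by linarith)
      _ = _ := by ring
  have hlogy0 : 0 ≤ Real.log (((2 * k * m) ^ 2 : ℕ) : ℝ) := by
    apply Real.log_nonneg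
    have : 1 ≤ (2 * k * m) ^ 2 := Nat.one_le_pow _ _ (by positivity)
    exact_mod_cast this
  have hN : (((2 * k + 2 + (K + 1) * r : ℕ)) : ℝ) ≤
      (4 + 2 * (A * B)) * (17 * q) * (k * (D ^ (2 + ε) * D ^ ε)) :=
    n_bound (by positivity) hk2 hq7 hD2 hDε hK1R (by linarith only [hr1R]) hK4 hr2
  have hDD : D ^ (2 + ε) * D ^ ε * D ^ ε = D ^ e := by
    rw [← Real.rpow_add hD0, ← Real.rpow_add hD0]
    congr 1
    rw [hε]; ring
  calc ((2 * k + 2 + (K + 1) * r : ℕ) : ℝ) * Real.log (((2 * k * m) ^ 2 : ℕ) : ℝ)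
      ≤ ((4 + 2 * (A * B)) * (17 * q) * (k * (D ^ (2 + ε) * D ^ ε))) *
        (4 * q * (D ^ ε * Real.log k)) :=
        mul_le_mul hN hlogy hlogy0 (by positivity)
    _ = ((4 + 2 * (A * B)) * (17 * q)) * (4 * q) * (D ^ (2 + ε) * D ^ ε * D ^ ε) *
        (k * Real.log k) := by ring
    _ = _ := by rw [hDD]

end Vale.Agent.P015.R3.H7
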